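import Vale.Agent.P122.Dir.Packet

/-!
# P122, data regular in one direction: the global bound
-/

noncomputable section

namespace Vale.Agent.P122.Dir

open MeasureTheory Complex Filter Topology Set
open scoped ENNReal Real

/-- Interpolation between second and fourth powers. -/
lemma lintegral_rpow_le {α : Type*} [MeasurableSpace α] {μ : Measure α} {F : α → ℝ≥0∞}
    (hF : AEMeasurable F μ) {p : ℝ} (hp2 : 2 ≤ p) (hp4 : p ≤ 4) :
    ∫⁻ a, F a ^ p ∂μ
      ≤ (∫⁻ a, F a ^ 2 ∂μ) ^ ((4 - p) / 2) * (∫⁻ a, F a ^ 4 ∂μ) ^ ((p - 2) / 2) := by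
  refine le_trans (le_of_eq (lintegral_congr fun a => ?_))
    (ENNReal.lintegral_mul_norm_pow_le (hF.pow_const 2) (hF.pow_const 4)
      (by linarith : 0 ≤ (4 - p) / 2) (by linarith : 0 ≤ (p - 2) / 2) (by ring))
  rw [← ENNReal.rpow_natCast, ← ENNReal.rpow_natCast, ← ENNReal.rpow_mul, ← ENNReal.rpow_mul,
    ← ENNReal.rpow_add_of_nonneg _ _ (by push_cast; linarith) (by push_cast; linarith)]
  congr 1; push_cast; ring

/-- Jensen's inequality for a weight of finite mass. -/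
lemma rpow_lintegral_le {α : Type*} [MeasurableSpace α] {μ : Measure α} {k F : α → ℝ≥0∞}
    (hk : AEMeasurable k μ) (hF : AEMeasurable F μ) {p : ℝ} (hp : 1 ≤ p) :
    (∫⁻ a, k a * F a ∂μ) ^ p ≤ (∫⁻ a, k a ∂μ) ^ (p - 1) * ∫⁻ a, k a * F a ^ p ∂μ := by
  have hp0 : 0 < p := by linarith
  have h := ENNReal.lintegral_mul_norm_pow_le hk (hk.mul (hF.pow_const p))
    (p := (p - 1) / p) (q := 1 / p) (div_nonneg (by linarith) hp0.le) (by positivity)
    (by field_simp; ring)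
  have e1 : ∀ a, k a ^ ((p - 1) / p) * (k a * F a ^ p) ^ (1 / p) = k a * F a := fun a => by
    rw [ENNReal.mul_rpow_of_nonneg _ _ (by positivity), ← ENNReal.rpow_mul, ← mul_assoc,
      ← ENNReal.rpow_add_of_nonneg _ _ (div_nonneg (by linarith) hp0.le) (by positivity),
      show (p - 1) / p + 1 / p = 1 by field_simp; ring, mul_one_div_cancel hp0.ne',
      ENNReal.rpow_one, ENNReal.rpow_one]
  simp only [Pi.mul_apply, e1] at h
  refine (ENNReal.rpow_le_rpow h hp0.le).trans (le_of_eq ?_)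
  rw [ENNReal.mul_rpow_of_nonneg _ _ hp0.le, ← ENNReal.rpow_mul, ← ENNReal.rpow_mul,
    div_mul_cancel₀ _ hp0.ne', one_div_mul_cancel hp0.ne', ENNReal.rpow_one]

/-- The dyadic time window. -/
def W (T : ℝ) : Set ℝ := {t | T ≤ |t| ∧ |t| ≤ 2 * T}

lemma measurableSet_W (T : ℝ) : MeasurableSet (W T) :=
  (measurableSet_le measurable_const continuous_abs.measurable).inter
    (measurableSet_le continuous_abs.measurable measurable_const)

lemma volume_W_le {T : ℝ} : volume (W T) ≤ ENNReal.ofReal (4 * T) := by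
  refine (measure_mono (t := Icc (-(2 * T)) (2 * T)) fun t ht => abs_le.1 ht.2).trans ?_
  rw [Real.volume_Icc]; exact ENNReal.ofReal_le_ofReal (by linarith)

lemma lintegral_exp_sq {a : ℝ} (ha : 0 < a) (c : ℝ) :
    ∫⁻ x, ENNReal.ofReal (Real.exp (-a * (x + c) ^ 2)) = ENNReal.ofReal (√(π / a)) := by
  rw [lintegral_add_right_eq_self (fun x => ENNReal.ofReal (Real.exp (-a * x ^ 2))) c,
    ← ofReal_integral_eq_lintegral_ofReal (integrable_exp_neg_mul_sq ha)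
      (ae_of_all _ fun x => (Real.exp_pos _).le), integral_gaussian]

/-- The packets at scale `T`. -/
def kP (ε x₂ t b : ℝ) : ℝ≥0∞ := ENNReal.ofReal (Real.exp (-(π / 17 * ε ^ 2) * (x₂ + 2 * t * b) ^ 2))

lemma enorm_packet_le {ε x₂ t b : ℝ} (h : |t| * ε ^ 2 ≤ 2) : ‖packet ε x₂ t b‖ₑ ≤ kP ε x₂ t b := by
  rw [← ofReal_norm]
  refine ENNReal.ofReal_le_ofReal ((norm_packet_le _ _ _ _).trans ?_)
  rw [pk]
  refine Real.exp_le_exp.2 ?_
  have hb : (t * ε ^ 2) ^ 2 ≤ 4 := by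
    have h1 : (|t| * ε ^ 2) ^ 2 ≤ 2 ^ 2 := pow_le_pow_left₀ (by positivity) h 2
    rw [mul_pow, sq_abs] at h1; rw [mul_pow]; linarith
  have h2 : π / 17 ≤ π / (1 + 4 * (t * ε ^ 2) ^ 2) :=
    div_le_div_of_nonneg_left Real.pi_pos.le (by positivity) (by linarith)
  have h3 : 0 ≤ ε ^ 2 * (x₂ + 2 * t * b) ^ 2 := by positivity
  nlinarith

lemma lintegral_kP_left {ε : ℝ} (hε : 0 < ε) (t b : ℝ) :
    ∫⁻ x₂, kP ε x₂ t b ≤ ENNReal.ofReal (√17 / ε) := by
  unfold kP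
  rw [lintegral_exp_sq (by positivity)]
  refine ENNReal.ofReal_le_ofReal (le_of_eq ?_)
  rw [show π / (π / 17 * ε ^ 2) = 17 / ε ^ 2 by field_simp, Real.sqrt_div' _ (sq_nonneg ε),
    Real.sqrt_sq hε.le]

lemma lintegral_kP_right {ε t : ℝ} (hε : 0 < ε) (ht : 1 ≤ |t| * ε ^ 2) (x₂ : ℝ) :
    ∫⁻ b, kP ε x₂ t b ≤ ENNReal.ofReal (√17 * ε) := by
  have ht0 : t ≠ 0 := fun h => by rw [h, abs_zero, zero_mul] at ht; linarith
  have e1 : ∀ b, -(π / 17 * ε ^ 2) * (x₂ + 2 * t * b) ^ 2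
      = -(π / 17 * ε ^ 2 * (4 * t ^ 2)) * (b + x₂ / (2 * t)) ^ 2 := fun b => by
    field_simp; ring
  simp only [kP, e1]
  rw [lintegral_exp_sq (by positivity)]
  refine ENNReal.ofReal_le_ofReal ?_
  rw [show π / (π / 17 * ε ^ 2 * (4 * t ^ 2)) = 17 / (2 * |t| * ε) ^ 2 by
    rw [mul_pow, mul_pow, sq_abs]; field_simp; ring, Real.sqrt_div' _ (sq_nonneg _),
    Real.sqrt_sq (by positivity), div_le_iff₀ (by positivity)]
  nlinarith [Real.sqrt_nonneg 17]

variable {g : ℝ × ℝ → ℂ} {R s : ℝ}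

lemma Nice.slice (hg : Nice g R s) (b : ℝ) :
    Measurable (fun a => g (a, b)) ∧ (∀ a, ‖g (a, b)‖ₑ ≤ 1) ∧
      (∀ a, a ∉ Icc (-R) R → g (a, b) = 0) ∧ Integrable (fun a => g (a, b)) ∧
      ∫⁻ a, ‖g (a, b)‖ₑ ^ 2 ≤ ENNReal.ofReal (2 * R) := by
  have hm : Measurable fun a => g (a, b) := hg.meas.comp measurable_prodMk_right
  have hs : ∀ a, a ∉ Icc (-R) R → g (a, b) = 0 := fun a ha => hg.supp (a, b) (Or.inl ha)
  refine ⟨hm, fun a => hg.enorm_le _, hs, ?_, ?_⟩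
  · refine ((integrable_indicator_iff measurableSet_Icc).2
      (integrableOn_const (C := (1:ℝ)) (measure_Icc_lt_top (a := -R) (b := R)).ne)).mono'
      hm.aestronglyMeasurable (ae_of_all _ fun a => ?_)
    by_cases ha : a ∈ Icc (-R) R
    · rw [indicator_of_mem ha]; exact hg.bdd _
    · simp [hs a ha, indicator_of_notMem ha]
  · calc ∫⁻ a, ‖g (a, b)‖ₑ ^ 2 ≤ ∫⁻ a, (Icc (-R) R).indicator (fun _ => 1) a := by
          refine lintegral_mono fun a => ?_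
          by_cases ha : a ∈ Icc (-R) R
          · rw [indicator_of_mem ha]; exact pow_le_one' (hg.enorm_le _) 2
          · simp [hs a ha]
      _ = _ := by
          rw [lintegral_indicator_const measurableSet_Icc, one_mul, Real.volume_Icc]; congr 1; ring

lemma measurable_E1_slice (hg : Nice g R s) :
    Measurable fun z : ℝ × ℝ × ℝ => E1 (fun a => g (a, z.1)) z.2.1 z.2.2 := by
  have hu : Measurable fun q : (ℝ × ℝ × ℝ) × ℝ =>
      g (q.2, q.1.1) * e (q.1.2.1 * q.2 + q.1.2.2 * q.2 ^ 2) :=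
    (hg.meas.comp (by fun_prop)).mul (continuous_e.measurable.comp (by fun_prop))
  exact (StronglyMeasurable.integral_prod_right
    (f := fun (z : ℝ × ℝ × ℝ) a => g (a, z.1) * e (z.2.1 * a + z.2.2 * a ^ 2))
    hu.stronglyMeasurable).measurable

attribute [local irreducible] EP E1 smo packet kP

/-- The smoothed part at one point. -/
lemma main_point (hg : Nice g R s) {p ε t : ℝ} (hp : 1 ≤ p) (hε : 0 < ε)
    (ht1 : 1 ≤ |t| * ε ^ 2) (ht2 : |t| * ε ^ 2 ≤ 2) (x : ℝ × ℝ) :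
    ‖EP (smo g ε) x t‖ₑ ^ p ≤ ENNReal.ofReal (√17 * ε) ^ (p - 1)
      * ∫⁻ b, kP ε x.2 t b * ‖E1 (fun a => g (a, b)) x.1 t‖ₑ ^ p := by
  have hk : Measurable fun b => kP ε x.2 t b := by unfold kP; fun_prop
  have hF : Measurable fun b => ‖E1 (fun a => g (a, b)) x.1 t‖ₑ :=
    ((measurable_E1_slice hg).comp (measurable_id.prodMk
      ((measurable_const (a := x.1)).prodMk (measurable_const (a := t))))).enorm
  have h1 : ‖EP (smo g ε) x t‖ₑ ≤ ∫⁻ b, kP ε x.2 t b * ‖E1 (fun a => g (a, b)) x.1 t‖ₑ := by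
    rw [hg.EP_smo]
    refine (enorm_integral_le_lintegral_enorm _).trans ?_
    refine lintegral_mono fun b => ?_
    rw [enorm_mul]
    exact mul_le_mul_left (enorm_packet_le ht2) _
  refine (ENNReal.rpow_le_rpow h1 (by linarith)).trans ?_
  refine (rpow_lintegral_le hk.aemeasurable hF.aemeasurable hp).trans ?_
  exact mul_le_mul_left (ENNReal.rpow_le_rpow (lintegral_kP_right hε ht1 x.2) (by linarith)) _

/-- The smoothed part at one time. -/
lemma main_slice (hg : Nice g R s) {p ε t : ℝ} (hp : 1 ≤ p) (hε : 0 < ε)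
    (ht1 : 1 ≤ |t| * ε ^ 2) (ht2 : |t| * ε ^ 2 ≤ 2) :
    ∫⁻ x, ‖EP (smo g ε) x t‖ₑ ^ p
      ≤ ENNReal.ofReal (√17 * ε) ^ (p - 1) * ENNReal.ofReal (√17 / ε)
          * ∫⁻ b, ∫⁻ x₁, ‖E1 (fun a => g (a, b)) x₁ t‖ₑ ^ p := by
  let F : ℝ → ℝ → ℝ≥0∞ := fun b x₁ => ‖E1 (fun a => g (a, b)) x₁ t‖ₑ
  have hFm : Measurable fun z : ℝ × ℝ => F z.1 z.2 :=
    ((measurable_E1_slice hg).comp (measurable_fst.prodMk (measurable_snd.prodMk measurable_const))).enorm
  have hkm : Measurable fun z : ℝ × ℝ => kP ε z.1 t z.2 := by unfold kP; fun_prop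
  have hL : Measurable fun z : (ℝ × ℝ) × ℝ => kP ε z.1.2 t z.2 * F z.2 z.1.1 ^ p :=
    (hkm.comp (by fun_prop : Measurable fun z : (ℝ × ℝ) × ℝ => (z.1.2, z.2))).mul
      ((hFm.comp (by fun_prop : Measurable fun z : (ℝ × ℝ) × ℝ => (z.2, z.1.1))).pow_const p)
  calc ∫⁻ x, ‖EP (smo g ε) x t‖ₑ ^ p
      ≤ ∫⁻ x : ℝ × ℝ, ENNReal.ofReal (√17 * ε) ^ (p - 1) * ∫⁻ b, kP ε x.2 t b * F b x.1 ^ p :=
        lintegral_mono fun x => main_point hg hp hε ht1 ht2 x
    _ = ENNReal.ofReal (√17 * ε) ^ (p - 1)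
          * ∫⁻ b, ∫⁻ x : ℝ × ℝ, kP ε x.2 t b * F b x.1 ^ p := by
        rw [lintegral_const_mul _ hL.lintegral_prod_right', lintegral_lintegral_swap hL.aemeasurable]
    _ ≤ _ := by
        rw [mul_assoc]
        refine mul_le_mul_right ?_ _
        rw [← lintegral_const_mul' _ _ ENNReal.ofReal_ne_top]
        refine lintegral_mono fun b => ?_
        have m1 : Measurable fun x₁ => F b x₁ ^ p := (hFm.comp measurable_prodMk_left).pow_const p
        have m2 : Measurable fun x₂ => kP ε x₂ t b := hkm.comp measurable_prodMk_right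
        rw [show (fun x : ℝ × ℝ => kP ε x.2 t b * F b x.1 ^ p)
            = fun x : ℝ × ℝ => F b x.1 ^ p * kP ε x.2 t b from funext fun x => mul_comm _ _,
          Measure.volume_eq_prod, lintegral_prod_mul m1.aemeasurable m2.aemeasurable, mul_comm]
        exact mul_le_mul_left (lintegral_kP_left hε t b) _

/-- The parabolic extension of one slice over a time window. -/
lemma slice_window (hg : Nice g R s) (hR : 0 ≤ R) {p η T : ℝ} (hp2 : 2 ≤ p) (hp4 : p ≤ 4)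
    (hη0 : 0 < η) (hη1 : η < 1) (hT : 1 ≤ T) (b : ℝ) :
    ∫⁻ t in W T, ∫⁻ x₁, ‖E1 (fun a => g (a, b)) x₁ t‖ₑ ^ p
      ≤ (Icc (-R) R).indicator (fun _ =>
        (ENNReal.ofReal (4 * T) * ENNReal.ofReal (2 * R)) ^ ((4 - p) / 2)
          * (ENNReal.ofReal (Real.exp π) * (ENNReal.ofReal ((2 * T) ^ η)
              * (ENNReal.ofReal (4 * R) * (2 * pwConst η R * pwConst η R)))) ^ ((p - 2) / 2)) b := by
  obtain ⟨hm, h1, hs, hi, h2⟩ := hg.slice b
  by_cases hb : b ∈ Icc (-R) R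
  · rw [indicator_of_mem hb]
    let F : ℝ × ℝ → ℝ≥0∞ := fun z => ‖E1 (fun a => g (a, b)) z.2 z.1‖ₑ
    have hF : Measurable F := ((continuous_E1 hi).comp (by fun_prop : Continuous fun z : ℝ × ℝ => (z.2, z.1))).measurable.enorm
    have key : ∀ q : ℝ, ∫⁻ t in W T, ∫⁻ x₁, F (t, x₁) ^ q = ∫⁻ z, F z ^ q ∂((volume.restrict (W T)).prod volume) :=
      fun q => (lintegral_prod _ (hF.pow_const q).aemeasurable).symm
    have keyN : ∀ q : ℕ, ∫⁻ t in W T, ∫⁻ x₁, F (t, x₁) ^ q = ∫⁻ z, F z ^ q ∂((volume.restrict (W T)).prod volume) :=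
      fun q => (lintegral_prod _ (hF.pow_const q).aemeasurable).symm
    show ∫⁻ t in W T, ∫⁻ x₁, F (t, x₁) ^ p ≤ _
    rw [key]
    refine (lintegral_rpow_le hF.aemeasurable hp2 hp4).trans (mul_le_mul' ?_ ?_)
    · refine ENNReal.rpow_le_rpow ?_ (by linarith)
      rw [← keyN]
      calc ∫⁻ t in W T, ∫⁻ x₁, F (t, x₁) ^ 2 ≤ ∫⁻ _t in W T, ENNReal.ofReal (2 * R) :=
            lintegral_mono fun t => (lintegral_sq_E1_le hi t).trans h2
        _ ≤ _ := by rw [setLIntegral_const, mul_comm]; exact mul_le_mul_left volume_W_le _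
    · refine ENNReal.rpow_le_rpow ?_ (by linarith)
      rw [← keyN]
      refine le_trans ?_ (mul_le_mul_right (windowed_L4_E1 hη0 hη1 hR (T := 2 * T) (by linarith) hm h1 hs) _)
      rw [← lintegral_const_mul' _ _ ENNReal.ofReal_ne_top]
      refine le_trans (setLIntegral_mono' (measurableSet_W T) fun t ht => ?_)
        (setLIntegral_le_lintegral _ _)
      rw [← mul_assoc, ← ENNReal.ofReal_mul (Real.exp_pos _).le]
      refine le_mul_of_one_le_left' ?_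
      rw [ENNReal.one_le_ofReal, win, ← Real.exp_add]
      refine Real.one_le_exp ?_
      have h3 : t ^ 2 ≤ (2 * T) ^ 2 := by rw [← sq_abs t]; exact pow_le_pow_left₀ (abs_nonneg t) ht.2 2
      have h4 : π / (2 * T) ^ 2 * t ^ 2 ≤ π := by
        rw [div_mul_eq_mul_div, div_le_iff₀ (by positivity)]
        exact mul_le_mul_of_nonneg_left h3 Real.pi_pos.le
      linarith
  · rw [indicator_of_notMem hb]
    refine le_of_eq ?_
    have hz : ∀ a, g (a, b) = 0 := fun a => hg.supp (a, b) (Or.inr hb)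
    simp [hz, E1, ENNReal.zero_rpow_of_pos (by linarith : 0 < p)]

/-- Decay of the smoothed part over a window. -/
lemma main_window (hR : 0 ≤ R) {p η : ℝ} (hp2 : 2 ≤ p) (hp4 : p ≤ 4)
    (hη0 : 0 < η) (hη1 : η < 1) :
    ∃ K : ℝ≥0∞, K ≠ ⊤ ∧ ∀ g : ℝ × ℝ → ℂ, Nice g R s → ∀ T : ℝ, 1 ≤ T →
      ∫⁻ t in W T, ∫⁻ x, ‖EP (smo g (T ^ (-(1 / 2) : ℝ))) x t‖ₑ ^ p
        ≤ K * ENNReal.ofReal (T ^ (3 - p + η * ((p - 2) / 2))) := by
  set θ := (4 - p) / 2 with hθ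
  set κ := (p - 2) / 2 with hκ
  have hθ0 : 0 ≤ θ := by rw [hθ]; linarith
  have hκ0 : 0 ≤ κ := by rw [hκ]; linarith
  set Q := ENNReal.ofReal (4 * R) * (2 * pwConst η R * pwConst η R)
  have hQ : Q ≠ ⊤ := ENNReal.mul_ne_top ENNReal.ofReal_ne_top
    (ENNReal.mul_ne_top (ENNReal.mul_ne_top ENNReal.ofNat_ne_top (pwConst_ne_top hη0 R))
      (pwConst_ne_top hη0 R))
  refine ⟨ENNReal.ofReal (√17 ^ (p - 1) * √17) * ((ENNReal.ofReal (8 * R)) ^ θ
      * (ENNReal.ofReal (Real.exp π * 2 ^ η) * Q) ^ κ * ENNReal.ofReal (2 * R)), ?_, fun g hg T hT => ?_⟩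
  · refine ENNReal.mul_ne_top ENNReal.ofReal_ne_top (ENNReal.mul_ne_top (ENNReal.mul_ne_top
      (ENNReal.rpow_ne_top_of_nonneg hθ0 ENNReal.ofReal_ne_top)
      (ENNReal.rpow_ne_top_of_nonneg hκ0 (ENNReal.mul_ne_top ENNReal.ofReal_ne_top hQ)))
      ENNReal.ofReal_ne_top)
  have hT0 : 0 < T := by linarith
  set ε := T ^ (-(1 / 2) : ℝ) with hε_def
  have hε : 0 < ε := Real.rpow_pos_of_pos hT0 _
  have hε2 : ε ^ 2 = T⁻¹ := by
    rw [hε_def, ← Real.rpow_natCast, ← Real.rpow_mul hT0.le, ← Real.rpow_neg_one]; norm_num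
  have hm : Measurable fun z : ℝ × ℝ => ∫⁻ x₁, ‖E1 (fun a => g (a, z.2)) x₁ z.1‖ₑ ^ p :=
    Measurable.lintegral_prod_right' (f := fun q : (ℝ × ℝ) × ℝ => ‖E1 (fun a => g (a, q.1.2)) q.2 q.1.1‖ₑ ^ p)
      (((measurable_E1_slice hg).comp (by fun_prop : Measurable fun q : (ℝ × ℝ) × ℝ => (q.1.2, q.2, q.1.1))).enorm.pow_const p)
  calc ∫⁻ t in W T, ∫⁻ x, ‖EP (smo g ε) x t‖ₑ ^ p
      ≤ ∫⁻ t in W T, ENNReal.ofReal (√17 * ε) ^ (p - 1) * ENNReal.ofReal (√17 / ε)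
          * ∫⁻ b, ∫⁻ x₁, ‖E1 (fun a => g (a, b)) x₁ t‖ₑ ^ p := by
        refine setLIntegral_mono' (measurableSet_W T) fun t ht => main_slice hg (by linarith) hε ?_ ?_
        · rw [hε2, ← div_eq_mul_inv, le_div_iff₀ hT0]; linarith [ht.1]
        · rw [hε2, ← div_eq_mul_inv, div_le_iff₀ hT0]; linarith [ht.2]
    _ = ENNReal.ofReal (√17 * ε) ^ (p - 1) * ENNReal.ofReal (√17 / ε)
          * ∫⁻ b, ∫⁻ t in W T, ∫⁻ x₁, ‖E1 (fun a => g (a, b)) x₁ t‖ₑ ^ p := by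
        rw [lintegral_const_mul _ hm.lintegral_prod_right',
          lintegral_lintegral_swap hm.aemeasurable]
    _ ≤ ENNReal.ofReal (√17 * ε) ^ (p - 1) * ENNReal.ofReal (√17 / ε)
          * ((ENNReal.ofReal (4 * T) * ENNReal.ofReal (2 * R)) ^ θ
            * (ENNReal.ofReal (Real.exp π) * (ENNReal.ofReal ((2 * T) ^ η) * Q)) ^ κ
            * ENNReal.ofReal (2 * R)) := by
        refine mul_le_mul_right ((lintegral_mono fun b => slice_window hg hR hp2 hp4 hη0 hη1 hT b).trans ?_) _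
        rw [lintegral_indicator_const measurableSet_Icc, Real.volume_Icc, show R - -R = 2 * R by ring]
    _ = _ := by
        have a1 : ENNReal.ofReal (√17 * ε) ^ (p - 1) * ENNReal.ofReal (√17 / ε)
            = ENNReal.ofReal (√17 ^ (p - 1) * √17) * ENNReal.ofReal (T ^ (-κ)) := by
          rw [ENNReal.ofReal_rpow_of_pos (by positivity), ← ENNReal.ofReal_mul (by positivity),
            ← ENNReal.ofReal_mul (by positivity)]
          congr 1
          rw [Real.mul_rpow (Real.sqrt_nonneg _) hε.le, hε_def, ← Real.rpow_mul hT0.le,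
            div_eq_mul_inv (√17), ← Real.rpow_neg hT0.le, mul_mul_mul_comm, ← Real.rpow_add hT0]
          congr 2; rw [hκ]; ring
        have a2 : (ENNReal.ofReal (4 * T) * ENNReal.ofReal (2 * R)) ^ θ
            = ENNReal.ofReal (8 * R) ^ θ * ENNReal.ofReal (T ^ θ) := by
          rw [← ENNReal.ofReal_rpow_of_pos hT0, ← ENNReal.mul_rpow_of_nonneg _ _ hθ0,
            ← ENNReal.ofReal_mul (by positivity), ← ENNReal.ofReal_mul (by positivity)]
          congr 2; ring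
        have a3 : (ENNReal.ofReal (Real.exp π) * (ENNReal.ofReal ((2 * T) ^ η) * Q)) ^ κ
            = (ENNReal.ofReal (Real.exp π * 2 ^ η) * Q) ^ κ * ENNReal.ofReal (T ^ (η * κ)) := by
          rw [Real.rpow_mul hT0.le, ← ENNReal.ofReal_rpow_of_pos (Real.rpow_pos_of_pos hT0 η),
            ← ENNReal.mul_rpow_of_nonneg _ _ hκ0, Real.mul_rpow zero_le_two hT0.le,
            ENNReal.ofReal_mul (by positivity), ENNReal.ofReal_mul (Real.exp_pos _).le]
          ring_nf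
        have a4 : ENNReal.ofReal (T ^ (3 - p + η * κ))
            = ENNReal.ofReal (T ^ (-κ)) * ENNReal.ofReal (T ^ θ) * ENNReal.ofReal (T ^ (η * κ)) := by
          rw [← ENNReal.ofReal_mul (by positivity), ← ENNReal.ofReal_mul (by positivity),
            ← Real.rpow_add hT0, ← Real.rpow_add hT0]
          congr 2; rw [hθ, hκ]; ring
        rw [a1, a2, a3, a4]; ring

/-- Decay of the rough remainder over a window. -/
lemma err_window {p : ℝ} (hs0 : 0 ≤ s) (hs1 : s ≤ 1) (hp2 : 2 ≤ p) (hp4 : p ≤ 4) :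
    ∃ K : ℝ≥0∞, K ≠ ⊤ ∧ ∀ g : ℝ × ℝ → ℂ, Nice g R s → ∀ T : ℝ, 1 ≤ T →
      ∫⁻ t in W T, ∫⁻ x, ‖EP (fun ξ => g ξ - smo g (T ^ (-(1 / 2) : ℝ)) ξ) x t‖ₑ ^ p
        ≤ K * ENNReal.ofReal (T ^ ((4 - p) / 2 - s * p / 4)) := by
  set θ := (4 - p) / 2 with hθ
  set κ := (p - 2) / 2 with hκ
  have hθ0 : 0 ≤ θ := by rw [hθ]; linarith
  have hκ0 : 0 ≤ κ := by rw [hκ]; linarith
  refine ⟨(8 * momC) ^ θ * (8 * momC ^ 2) ^ κ, ENNReal.mul_ne_top
    (ENNReal.rpow_ne_top_of_nonneg hθ0 (ENNReal.mul_ne_top ENNReal.ofNat_ne_top momC_ne_top))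
    (ENNReal.rpow_ne_top_of_nonneg hκ0 (ENNReal.mul_ne_top ENNReal.ofNat_ne_top
      (ENNReal.pow_ne_top momC_ne_top))), fun g hg T hT => ?_⟩
  have hT0 : 0 < T := by linarith
  set ε := T ^ (-(1 / 2) : ℝ) with hε_def
  have hε : 0 < ε := Real.rpow_pos_of_pos hT0 _
  set r : ℝ × ℝ → ℂ := fun ξ => g ξ - smo g ε ξ with hr_def
  have hrm : Measurable r := hg.meas.sub (measurable_smo hg.meas ε)
  have hri : Integrable r := hg.integrable.sub (hg.integrable_smo hs0 hs1 hε.le)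
  have hr1 : ∀ ξ, ‖r ξ‖ₑ ≤ 2 := fun ξ => by
    rw [← ofReal_norm, show (2 : ℝ≥0∞) = ENNReal.ofReal 2 by simp]
    exact ENNReal.ofReal_le_ofReal ((norm_sub_le _ _).trans (by linarith [hg.bdd ξ, hg.norm_smo_le ε ξ]))
  have hrL : ∫⁻ ξ, ‖r ξ‖ₑ ≤ ENNReal.ofReal (ε ^ s) * momC := hg.sub_smo_le hs0 hs1 hε.le
  let F : ℝ × (ℝ × ℝ) → ℝ≥0∞ := fun z => ‖EP r z.2 z.1‖ₑ
  have hF : Measurable F :=
    ((continuous_EP hri).comp (by fun_prop : Continuous fun z : ℝ × (ℝ × ℝ) => (z.2, z.1))).measurable.enorm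
  have key : ∫⁻ t in W T, ∫⁻ x, F (t, x) ^ p = ∫⁻ z, F z ^ p ∂((volume.restrict (W T)).prod volume) :=
    (lintegral_prod _ (hF.pow_const p).aemeasurable).symm
  have keyN : ∀ q : ℕ, ∫⁻ t in W T, ∫⁻ x, F (t, x) ^ q = ∫⁻ z, F z ^ q ∂((volume.restrict (W T)).prod volume) :=
    fun q => (lintegral_prod _ (hF.pow_const q).aemeasurable).symm
  show ∫⁻ t in W T, ∫⁻ x, F (t, x) ^ p ≤ _
  rw [key]
  refine (lintegral_rpow_le hF.aemeasurable hp2 hp4).trans ?_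
  have hA : ∫⁻ z, F z ^ 2 ∂((volume.restrict (W T)).prod volume)
      ≤ 8 * momC * ENNReal.ofReal (T * ε ^ s) := by
    rw [← keyN]
    calc ∫⁻ t in W T, ∫⁻ x, F (t, x) ^ 2 ≤ ∫⁻ _t in W T, 2 * (ENNReal.ofReal (ε ^ s) * momC) := by
          refine lintegral_mono fun t => (lintegral_sq_EP_le hrm hri t).trans ?_
          refine le_trans (lintegral_mono fun ξ => ?_) (le_trans (le_of_eq
            (lintegral_const_mul 2 hrm.enorm)) (mul_le_mul_right hrL _))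
          rw [sq]; exact mul_le_mul_left (hr1 ξ) _
      _ ≤ 2 * (ENNReal.ofReal (ε ^ s) * momC) * ENNReal.ofReal (4 * T) := by
          rw [setLIntegral_const]; exact mul_le_mul_right volume_W_le _
      _ = _ := by
          rw [ENNReal.ofReal_mul hT0.le, ENNReal.ofReal_mul (by norm_num : (0:ℝ) ≤ 4),
            show ENNReal.ofReal 4 = 4 by simp]
          ring
  have hB : ∫⁻ z, F z ^ 4 ∂((volume.restrict (W T)).prod volume)
      ≤ 8 * momC ^ 2 * ENNReal.ofReal ((ε ^ s) ^ 2) := by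
    rw [← keyN]
    refine (setLIntegral_le_lintegral _ _).trans ((L4_EP hrm hri hr1).trans ?_)
    rw [ENNReal.ofReal_pow (Real.rpow_nonneg hε.le s)]
    calc 2 * (2 : ℝ≥0∞) ^ 2 * (∫⁻ ξ, ‖r ξ‖ₑ) ^ 2 ≤ 2 * (2 : ℝ≥0∞) ^ 2 * (ENNReal.ofReal (ε ^ s) * momC) ^ 2 :=
          mul_le_mul_right (pow_le_pow_left' hrL 2) _
      _ = _ := by ring
  refine (mul_le_mul' (ENNReal.rpow_le_rpow hA hθ0) (ENNReal.rpow_le_rpow hB hκ0)).trans (le_of_eq ?_)
  rw [ENNReal.mul_rpow_of_nonneg _ _ hθ0, ENNReal.mul_rpow_of_nonneg _ _ hκ0,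
    ENNReal.ofReal_rpow_of_pos (by positivity), ENNReal.ofReal_rpow_of_pos (by positivity),
    mul_mul_mul_comm, ← ENNReal.ofReal_mul (by positivity)]
  congr 2
  rw [Real.mul_rpow hT0.le (by positivity), hε_def, ← Real.rpow_natCast,
    ← Real.rpow_mul hT0.le, ← Real.rpow_mul hT0.le, ← Real.rpow_mul hT0.le, ← Real.rpow_mul hT0.le,
    ← Real.rpow_add hT0, ← Real.rpow_add hT0]
  congr 1; rw [hθ, hκ]; push_cast; ring

lemma Nice.lintegral_le (hg : Nice g R s) :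
    ∫⁻ ξ, ‖g ξ‖ₑ ≤ ENNReal.ofReal (2 * R) * ENNReal.ofReal (2 * R) := by
  calc ∫⁻ ξ, ‖g ξ‖ₑ ≤ ∫⁻ ξ, (Icc (-R) R ×ˢ Icc (-R) R).indicator (fun _ => 1) ξ := by
        refine lintegral_mono fun ξ => ?_
        by_cases h : ξ ∈ Icc (-R) R ×ˢ Icc (-R) R
        · rw [indicator_of_mem h]; exact hg.enorm_le ξ
        · simp [hg.supp ξ (Classical.not_and_iff_not_or_not.1 fun hc => h ⟨hc.1, hc.2⟩)]
    _ = _ := by
        rw [lintegral_indicator_const (measurableSet_Icc.prod measurableSet_Icc), one_mul,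
          Measure.volume_eq_prod, Measure.prod_prod, Real.volume_Icc, show R - -R = 2 * R by ring]

/-- Bounded times. -/
lemma small_times (hg : Nice g R s) {p : ℝ} (hp : 2 ≤ p) :
    ∫⁻ t in Icc (-1:ℝ) 1, ∫⁻ x, ‖EP g x t‖ₑ ^ p
      ≤ (ENNReal.ofReal (2 * R) * ENNReal.ofReal (2 * R)) ^ (p - 2)
          * (ENNReal.ofReal (2 * R) * ENNReal.ofReal (2 * R)) * 2 := by
  set L := ENNReal.ofReal (2 * R) * ENNReal.ofReal (2 * R) with hL
  have hLt : L ≠ ⊤ := ENNReal.mul_ne_top ENNReal.ofReal_ne_top ENNReal.ofReal_ne_top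
  let G : ℝ → ℝ≥0∞ := fun t => ∫⁻ x, ‖EP g x t‖ₑ ^ p
  calc ∫⁻ t in Icc (-1:ℝ) 1, G t ≤ ∫⁻ _t in Icc (-1:ℝ) 1, L ^ (p - 2) * L := by
        refine lintegral_mono fun t => ?_
        calc G t ≤ ∫⁻ x, L ^ (p - 2) * ‖EP g x t‖ₑ ^ 2 := by
              refine lintegral_mono fun x => ?_
              rw [← ENNReal.rpow_natCast ‖EP g x t‖ₑ 2]
              calc ‖EP g x t‖ₑ ^ p = ‖EP g x t‖ₑ ^ (p - 2) * ‖EP g x t‖ₑ ^ ((2 : ℕ) : ℝ) := by
                    rw [← ENNReal.rpow_add_of_nonneg _ _ (by linarith) (by norm_num)]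
                    congr 1; push_cast; ring
                _ ≤ _ := mul_le_mul_left (ENNReal.rpow_le_rpow
                    ((enorm_EP_le g x t).trans hg.lintegral_le) (by linarith)) _
          _ ≤ _ := by
              rw [lintegral_const_mul' _ _ (ENNReal.rpow_ne_top_of_nonneg (by linarith) hLt)]
              refine mul_le_mul_right ((lintegral_sq_EP_le hg.meas hg.integrable t).trans
                ((lintegral_mono fun ξ => ?_).trans hg.lintegral_le)) _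
              rw [sq]; exact mul_le_of_le_one_left' (hg.enorm_le ξ)
    _ = _ := by rw [setLIntegral_const, Real.volume_Icc]; norm_num

/-- Splitting into the smoothed part and the remainder. -/
lemma split_window (hg : Nice g R s) (hs0 : 0 ≤ s) (hs1 : s ≤ 1) {p : ℝ} (hp : 1 ≤ p)
    {ε : ℝ} (hε : 0 ≤ ε) (S : Set ℝ) :
    ∫⁻ t in S, ∫⁻ x, ‖EP g x t‖ₑ ^ p
      ≤ (2 : ℝ≥0∞) ^ (p - 1) * ((∫⁻ t in S, ∫⁻ x, ‖EP (smo g ε) x t‖ₑ ^ p)
          + ∫⁻ t in S, ∫⁻ x, ‖EP (fun ξ => g ξ - smo g ε ξ) x t‖ₑ ^ p) := by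
  have hsi := hg.integrable_smo hs0 hs1 hε
  have hsplit : ∀ x t, EP g x t = EP (smo g ε) x t + EP (fun ξ => g ξ - smo g ε ξ) x t := fun x t => by
    have hb : ∀ {k : ℝ × ℝ → ℂ}, Integrable k →
        Integrable fun ξ => k ξ * e (x.1 * ξ.1 + x.2 * ξ.2 + t * nsq ξ) := fun {k} hk =>
      hk.mul_bdd (c := 1) (continuous_e.comp (by unfold nsq; fun_prop)).aestronglyMeasurable
        (ae_of_all _ fun a => (norm_e _).le)
    rw [EP, EP, EP, ← integral_add (hb hsi) (hb (k := fun ξ => g ξ - smo g ε ξ) (hg.integrable.sub hsi))]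
    exact integral_congr_ae (ae_of_all _ fun ξ => by ring)
  have hm1 : Measurable fun z : ℝ × (ℝ × ℝ) => ‖EP (smo g ε) z.2 z.1‖ₑ ^ p :=
    (((continuous_EP hsi).comp (by fun_prop : Continuous fun z : ℝ × (ℝ × ℝ) => (z.2, z.1))).measurable.enorm).pow_const p
  have h2p : (2 : ℝ≥0∞) ^ (p - 1) ≠ ⊤ :=
    ENNReal.rpow_ne_top_of_nonneg (by linarith) ENNReal.ofNat_ne_top
  have hm2 : Measurable fun t => ∫⁻ x, ‖EP (smo g ε) x t‖ₑ ^ p := hm1.lintegral_prod_right'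
  rw [← lintegral_add_left hm2, ← lintegral_const_mul' _ _ h2p]
  refine lintegral_mono fun t => ?_
  have m1 : Measurable fun x => ‖EP (smo g ε) x t‖ₑ ^ p := hm1.comp measurable_prodMk_left
  rw [← lintegral_add_left m1, ← lintegral_const_mul' _ _ h2p]
  refine lintegral_mono fun x => ?_
  rw [hsplit x t]
  exact (ENNReal.rpow_le_rpow (enorm_add_le _ _) (by linarith)).trans
    (ENNReal.rpow_add_le_mul_rpow_add_rpow _ _ hp)

/-- The global bound for normalised data. -/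
theorem nice_bound {p : ℝ} (hR : 0 ≤ R) (hp : 3 < p) (hs0 : 0 < s) (hs1 : s ≤ 1)
    (hps : 8 < p * (2 + s)) :
    ∃ K : ℝ≥0∞, K ≠ ⊤ ∧ ∀ g : ℝ × ℝ → ℂ, Nice g R s →
      ∫⁻ t, ∫⁻ x, ‖EP g x t‖ₑ ^ p ≤ K := by
  set L := ENNReal.ofReal (2 * R) * ENNReal.ofReal (2 * R) with hL
  have hLt : L ≠ ⊤ := ENNReal.mul_ne_top ENNReal.ofReal_ne_top ENNReal.ofReal_ne_top
  rcases le_or_gt 4 p with h4 | h4
  · refine ⟨L ^ (p - 4) * (2 * 1 ^ 2 * L ^ 2), ENNReal.mul_ne_top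
      (ENNReal.rpow_ne_top_of_nonneg (by linarith) hLt)
      (ENNReal.mul_ne_top (by simp) (ENNReal.pow_ne_top hLt)), fun g hg => ?_⟩
    have hgL := hg.lintegral_le
    calc ∫⁻ t, ∫⁻ x, ‖EP g x t‖ₑ ^ p ≤ ∫⁻ t, ∫⁻ x, L ^ (p - 4) * ‖EP g x t‖ₑ ^ 4 := by
          refine lintegral_mono fun t => lintegral_mono fun x => ?_
          rw [← ENNReal.rpow_natCast ‖EP g x t‖ₑ 4]
          calc ‖EP g x t‖ₑ ^ p = ‖EP g x t‖ₑ ^ (p - 4) * ‖EP g x t‖ₑ ^ ((4 : ℕ) : ℝ) := by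
                rw [← ENNReal.rpow_add_of_nonneg _ _ (by linarith) (by norm_num)]
                congr 1; push_cast; ring
            _ ≤ _ := mul_le_mul_left (ENNReal.rpow_le_rpow ((enorm_EP_le g x t).trans hgL) (by linarith)) _
      _ = L ^ (p - 4) * ∫⁻ t, ∫⁻ x, ‖EP g x t‖ₑ ^ 4 := by
          simp only [lintegral_const_mul' _ _ (ENNReal.rpow_ne_top_of_nonneg (by linarith : 0 ≤ p - 4) hLt)]
      _ ≤ _ := mul_le_mul_right ((L4_EP hg.meas hg.integrable hg.enorm_le).trans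
          (mul_le_mul_right (pow_le_pow_left' hgL 2) _)) _
  · set η := (p - 3) / (p - 2) with hη
    have hη0 : 0 < η := div_pos (by linarith) (by linarith)
    have hη1 : η < 1 := (div_lt_one (by linarith)).2 (by linarith)
    obtain ⟨K1, hK1, h1⟩ := main_window (R := R) (s := s) hR (p := p) (by linarith) h4.le hη0 hη1
    obtain ⟨K2, hK2, h2⟩ := err_window (R := R) (s := s) (p := p) hs0.le hs1 (by linarith) h4.le
    set γ := min ((p - 3) / 2) (s * p / 4 - (4 - p) / 2) with hγ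
    have hγ0 : 0 < γ := lt_min (by linarith) (by nlinarith)
    set q : ℝ≥0∞ := ENNReal.ofReal ((2 : ℝ) ^ (-γ)) with hq
    have hq1 : q < 1 := by
      rw [hq, ← ENNReal.ofReal_one]
      exact (ENNReal.ofReal_lt_ofReal_iff one_pos).2
        (Real.rpow_lt_one_of_one_lt_of_neg one_lt_two (by linarith))
    set C := (2 : ℝ≥0∞) ^ (p - 1) * (K1 + K2) with hC
    have hCt : C ≠ ⊤ := ENNReal.mul_ne_top
      (ENNReal.rpow_ne_top_of_nonneg (by linarith) ENNReal.ofNat_ne_top) (ENNReal.add_ne_top.2 ⟨hK1, hK2⟩)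
    refine ⟨L ^ (p - 2) * L * 2 + C * (1 - q)⁻¹, ENNReal.add_ne_top.2
      ⟨ENNReal.mul_ne_top (ENNReal.mul_ne_top (ENNReal.rpow_ne_top_of_nonneg (by linarith) hLt) hLt)
        ENNReal.ofNat_ne_top, ENNReal.mul_ne_top hCt (ENNReal.inv_ne_top.2 (tsub_pos_of_lt hq1).ne')⟩,
      fun g hg => ?_⟩
    set G : ℝ → ℝ≥0∞ := fun t => ∫⁻ x, ‖EP g x t‖ₑ ^ p
    have hcover : (univ : Set ℝ) ⊆ Icc (-1) 1 ∪ ⋃ n : ℕ, W ((2 : ℝ) ^ n) := fun t _ => by
      rcases le_total |t| 1 with h | h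
      · exact Or.inl (abs_le.1 h)
      · obtain ⟨n, hn⟩ := exists_nat_pow_near h one_lt_two
        exact Or.inr (mem_iUnion.2 ⟨n, hn.1, by rw [← pow_succ']; exact hn.2.le⟩)
    have hsmall : ∫⁻ t in Icc (-1:ℝ) 1, G t ≤ L ^ (p - 2) * L * 2 := small_times hg (by linarith)
    have hwin : ∀ n : ℕ, ∫⁻ t in W ((2 : ℝ) ^ n), G t ≤ C * q ^ n := fun n => by
      set T := (2 : ℝ) ^ n with hTdef
      have hT : 1 ≤ T := one_le_pow₀ one_le_two
      have hexp : ∀ {ex : ℝ}, ex ≤ -γ → ENNReal.ofReal (T ^ ex) ≤ q ^ n := fun {ex} hex => by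
        rw [hq, ← ENNReal.ofReal_pow (by positivity)]
        refine ENNReal.ofReal_le_ofReal ((Real.rpow_le_rpow_of_exponent_le hT hex).trans (le_of_eq ?_))
        rw [hTdef, ← Real.rpow_natCast 2 n, ← Real.rpow_mul zero_le_two, mul_comm,
          Real.rpow_mul zero_le_two, Real.rpow_natCast]
      refine (split_window hg hs0.le hs1 (by linarith)
        (Real.rpow_nonneg (by linarith : (0:ℝ) ≤ T) (-(1 / 2) : ℝ)) (W T)).trans ?_
      calc (2 : ℝ≥0∞) ^ (p - 1) * ((∫⁻ t in W T, ∫⁻ x, ‖EP (smo g (T ^ (-(1 / 2) : ℝ))) x t‖ₑ ^ p)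
            + ∫⁻ t in W T, ∫⁻ x, ‖EP (fun ξ => g ξ - smo g (T ^ (-(1 / 2) : ℝ)) ξ) x t‖ₑ ^ p)
          ≤ (2 : ℝ≥0∞) ^ (p - 1) * (K1 * q ^ n + K2 * q ^ n) := by
            refine mul_le_mul_right (add_le_add ((h1 g hg T hT).trans (mul_le_mul_right (hexp ?_) _))
              ((h2 g hg T hT).trans (mul_le_mul_right (hexp ?_) _))) _
            · have e1 : η * ((p - 2) / 2) = (p - 3) / 2 := by
                rw [hη]; field_simp [(by linarith : p - 2 ≠ 0)]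
              rw [e1]; linarith [min_le_left ((p - 3) / 2) (s * p / 4 - (4 - p) / 2)]
            · linarith [min_le_right ((p - 3) / 2) (s * p / 4 - (4 - p) / 2)]
        _ = _ := by rw [hC]; ring
    calc ∫⁻ t, G t = ∫⁻ t in univ, G t := (setLIntegral_univ _).symm
      _ ≤ ∫⁻ t in Icc (-1:ℝ) 1 ∪ ⋃ n : ℕ, W ((2 : ℝ) ^ n), G t := lintegral_mono_set hcover
      _ ≤ (∫⁻ t in Icc (-1:ℝ) 1, G t) + ∑' n : ℕ, ∫⁻ t in W ((2 : ℝ) ^ n), G t :=
          (lintegral_union_le _ _ _).trans (add_le_add le_rfl (lintegral_iUnion_le _ _))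
      _ ≤ _ := by
          refine add_le_add hsmall ((ENNReal.tsum_le_tsum hwin).trans ?_)
          rw [ENNReal.tsum_mul_left, ENNReal.tsum_geometric]

end Vale.Agent.P122.Dir
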