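import Vale.Agent.P122.Dir.Osc

/-!
# P122, data regular in one direction: the parabola

The `L⁴` bound on a time window of length `T`, with loss `T^η`.
-/

noncomputable section

namespace Vale.Agent.P122.Dir

open MeasureTheory Complex Filter Topology Set
open scoped ENNReal Real

/-- Extension from the parabola. -/
def E1 (h : ℝ → ℂ) (x t : ℝ) : ℂ := ∫ a, h a * e (x * a + t * a ^ 2)

lemma continuous_E1 {h : ℝ → ℂ} (hh : Integrable h) :
    Continuous fun z : ℝ × ℝ => E1 h z.1 z.2 := by
  refine continuous_of_dominated (bound := fun a => ‖h a‖) (fun z => ?_) (fun z => ?_) hh.norm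
    (ae_of_all _ fun a => ?_)
  · exact hh.aestronglyMeasurable.mul
      (continuous_e.comp (by fun_prop)).aestronglyMeasurable
  · exact ae_of_all _ fun a => by simp [norm_e]
  · exact continuous_const.mul (continuous_e.comp (by fun_prop))

lemma lintegral_sq_E1_le {h : ℝ → ℂ} (hh : Integrable h) (t : ℝ) :
    ∫⁻ x, ‖E1 h x t‖ₑ ^ 2 ≤ ∫⁻ a, ‖h a‖ₑ ^ 2 := by
  have hk : Integrable fun a => h a * e (t * a ^ 2) :=
    hh.mul_bdd (c := 1) (continuous_e.comp (by fun_prop)).aestronglyMeasurable
      (ae_of_all _ fun a => (norm_e _).le)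
  have := lintegral_sq_le hk
  simp only [enorm_mul, enorm_e, mul_one] at this
  refine le_trans (le_of_eq (lintegral_congr fun x => ?_)) this
  congr 2
  refine integral_congr_ae (ae_of_all _ fun a => ?_)
  simp only [e_add]; ring

/-- `|v|^(η - 1)`, equal to `∞` at `0` when `η < 1`. -/
def pw (η v : ℝ) : ℝ≥0∞ := ENNReal.ofReal |v| ^ (η - 1)

lemma measurable_pw (η : ℝ) : Measurable (pw η) :=
  (ENNReal.continuous_ofReal.comp continuous_abs).measurable.pow_const _

lemma pw_anti {η u v : ℝ} (hη : η ≤ 1) (h : |u| ≤ |v|) : pw η v ≤ pw η u := by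
  unfold pw
  rw [show η - 1 = -(1 - η) by ring, ENNReal.rpow_neg, ENNReal.rpow_neg]
  exact ENNReal.inv_le_inv.2 (ENNReal.rpow_le_rpow (ENNReal.ofReal_le_ofReal h) (by linarith))

lemma pw_neg (η v : ℝ) : pw η (-v) = pw η v := by simp [pw]

lemma ker_le_pw {η T : ℝ} (hη0 : 0 < η) (hη1 : η < 1) (hT : 0 < T) (v : ℝ) :
    ENNReal.ofReal (ker T v) ≤ ENNReal.ofReal (T ^ η) * pw η v := by
  rcases eq_or_ne v 0 with rfl | hv
  · rw [pw, abs_zero, ENNReal.ofReal_zero, ENNReal.zero_rpow_of_neg (by linarith),
      ENNReal.mul_top (by simp only [ne_eq, ENNReal.ofReal_eq_zero, not_le]; positivity)]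
    exact le_top
  · have hv' : 0 < |v| := abs_pos.2 hv
    rw [pw, ENNReal.ofReal_rpow_of_pos hv', ← ENNReal.ofReal_mul (by positivity)]
    refine ENNReal.ofReal_le_ofReal ?_
    set y := T * |v| with hy
    have hy0 : 0 < y := by positivity
    have hb : y ^ (1 - η) ≤ Real.exp (π * y ^ 2) := by
      rcases le_total y 1 with h | h
      · exact (Real.rpow_le_one hy0.le h (by linarith)).trans (Real.one_le_exp (by positivity))
      · refine ((Real.rpow_le_rpow_of_exponent_le h (by linarith : 1 - η ≤ 1)).trans_eq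
          (Real.rpow_one y)).trans ?_
        nlinarith [Real.add_one_le_exp (π * y ^ 2), Real.pi_gt_three, mul_le_mul_of_nonneg_left h hy0.le]
    have e2 : ker T v = T * (Real.exp (π * y ^ 2))⁻¹ := by
      rw [ker, ← Real.exp_neg, hy, mul_pow, sq_abs]; ring_nf
    have e3 : T ^ η * |v| ^ (η - 1) = T * (y ^ (1 - η))⁻¹ := by
      have e4 : T ^ η = T * T ^ (η - 1) := by rw [Real.rpow_sub_one hT.ne']; field_simp
      rw [hy, Real.mul_rpow hT.le hv'.le, mul_inv, ← Real.rpow_neg hT.le, ← Real.rpow_neg hv'.le,
        neg_sub, e4, mul_assoc]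
    rw [e2, e3]
    exact mul_le_mul_of_nonneg_left (inv_anti₀ (by positivity) hb) hT.le

lemma pw_mul_le {η : ℝ} (hη1 : η < 1) (u v : ℝ) :
    pw η (2 * (u * v)) ≤ pw η ((u + v) / 2) * (pw η u + pw η v) := by
  refine (pw_anti hη1.le (u := u * v) (by
    rw [abs_mul 2, abs_two]; linarith [abs_nonneg (u * v)])).trans ?_
  have hm : pw η (u * v) = pw η u * pw η v := by
    rw [pw, abs_mul, ENNReal.ofReal_mul (abs_nonneg _),
      ENNReal.mul_rpow_of_ne_top ENNReal.ofReal_ne_top ENNReal.ofReal_ne_top]
    rfl
  rw [hm]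
  rcases le_total |u| |v| with h | h
  · have : pw η v ≤ pw η ((u + v) / 2) := pw_anti hη1.le (by
      rw [abs_div, abs_two]; linarith [abs_add_le u v])
    rw [mul_comm (pw η ((u + v) / 2))]
    exact mul_le_mul' (le_self_add) this
  · have : pw η u ≤ pw η ((u + v) / 2) := pw_anti hη1.le (by
      rw [abs_div, abs_two]; linarith [abs_add_le u v])
    exact mul_le_mul' this le_add_self

lemma pw_local {η : ℝ} (hη0 : 0 < η) :
    ∫⁻ v in Icc (-1 : ℝ) 1, pw η v < ⊤ := by
  have hpos : ∫⁻ v in Ioc (0:ℝ) 1, pw η v < ⊤ := by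
    have hi : IntegrableOn (fun v : ℝ => v ^ (η - 1)) (Ioc 0 1) :=
      (intervalIntegrable_iff_integrableOn_Ioc_of_le zero_le_one).1
        (intervalIntegral.intervalIntegrable_rpow' (by linarith))
    refine lt_of_le_of_lt (le_of_eq (setLIntegral_congr_fun measurableSet_Ioc fun v hv => ?_))
      hi.2
    simp only [pw]
    rw [abs_of_pos hv.1, ENNReal.ofReal_rpow_of_pos hv.1, ← ofReal_norm,
      Real.norm_of_nonneg (Real.rpow_nonneg hv.1.le _)]
  have hneg : ∫⁻ v in Ico (-1:ℝ) 0, pw η v < ⊤ := by
    have := (Measure.measurePreserving_neg (volume : Measure ℝ)).setLIntegral_comp_preimage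
      (measurableSet_Ioc (a := (0:ℝ)) (b := 1)) (measurable_pw η)
    simp only [pw_neg, Set.neg_preimage, Set.neg_Ioc, neg_zero] at this
    rw [this]; exact hpos
  have h0 : ∫⁻ v in ({0} : Set ℝ), pw η v = 0 := setLIntegral_measure_zero _ _ (by simp)
  refine lt_of_le_of_lt (lintegral_mono_set (t := Ico (-1:ℝ) 0 ∪ ({0} ∪ Ioc 0 1)) ?_) ?_
  · intro v hv
    rcases lt_trichotomy v 0 with h | h | h
    · exact Or.inl ⟨hv.1, h⟩
    · exact Or.inr (Or.inl h)
    · exact Or.inr (Or.inr ⟨h, hv.2⟩)
  · refine lt_of_le_of_lt (lintegral_union_le _ _ _) (ENNReal.add_lt_top.2 ⟨hneg, ?_⟩)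
    refine lt_of_le_of_lt (lintegral_union_le _ _ _) ?_
    rw [h0, zero_add]; exact hpos

/-- The bound for the integral of `|v - c|^(η-1)` over an interval `[-R, R]`. -/
def pwConst (η R : ℝ) : ℝ≥0∞ := (∫⁻ v in Icc (-1 : ℝ) 1, pw η v) + ENNReal.ofReal (2 * R)

lemma pwConst_ne_top {η : ℝ} (hη0 : 0 < η) (R : ℝ) : pwConst η R ≠ ⊤ :=
  (ENNReal.add_lt_top.2 ⟨pw_local hη0, ENNReal.ofReal_lt_top⟩).ne

lemma setLIntegral_pw_le {η : ℝ} (hη1 : η < 1) (R c : ℝ) :
    ∫⁻ v in Icc (-R) R, pw η (v - c) ≤ pwConst η R := by
  have hpt : ∀ v : ℝ, pw η (v - c) ≤ (Icc (-1 : ℝ) 1).indicator (pw η) (v - c) + 1 := fun v => by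
    by_cases h : v - c ∈ Icc (-1 : ℝ) 1
    · rw [indicator_of_mem h]; exact le_self_add
    · refine le_trans ?_ le_add_self
      have h1 : |(1:ℝ)| ≤ |v - c| := by
        rw [abs_one]
        by_contra hc
        exact h (abs_le.1 (le_of_lt (not_le.1 hc)))
      exact (pw_anti hη1.le h1).trans (by simp [pw])
  calc ∫⁻ v in Icc (-R) R, pw η (v - c)
      ≤ ∫⁻ v in Icc (-R) R, ((Icc (-1 : ℝ) 1).indicator (pw η) (v - c) + 1) := lintegral_mono hpt
    _ = (∫⁻ v in Icc (-R) R, (Icc (-1 : ℝ) 1).indicator (pw η) (v - c)) + ENNReal.ofReal (2 * R) := by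
        rw [lintegral_add_right _ measurable_const, setLIntegral_const, one_mul, Real.volume_Icc]
        congr 2; ring
    _ ≤ (∫⁻ v, (Icc (-1 : ℝ) 1).indicator (pw η) (v - c)) + ENNReal.ofReal (2 * R) :=
        add_le_add (setLIntegral_le_lintegral _ _) le_rfl
    _ = pwConst η R := by
        rw [lintegral_sub_right_eq_self (fun v => (Icc (-1 : ℝ) 1).indicator (pw η) v) c,
          lintegral_indicator measurableSet_Icc]
        rfl

/-- The windowed `L⁴` bound on the parabola for data bounded by one on `[-R, R]`. -/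
theorem windowed_L4_E1 {η R T : ℝ} (hη0 : 0 < η) (hη1 : η < 1) (hR : 0 ≤ R) (hT : 0 < T)
    {h : ℝ → ℂ} (hm : Measurable h) (h1 : ∀ a, ‖h a‖ₑ ≤ 1) (hs : ∀ a, a ∉ Icc (-R) R → h a = 0) :
    ∫⁻ t, ENNReal.ofReal (win T t) * ∫⁻ x, ‖E1 h x t‖ₑ ^ 4
      ≤ ENNReal.ofReal (T ^ η) * (ENNReal.ofReal (4 * R) * (2 * pwConst η R * pwConst η R)) := by
  have hh : Integrable h := by
    refine ((integrable_indicator_iff measurableSet_Icc).2
      (integrableOn_const (C := (1:ℝ)) (measure_Icc_lt_top (a := -R) (b := R)).ne)).mono'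
      hm.aestronglyMeasurable (ae_of_all _ fun a => ?_)
    by_cases ha : a ∈ Icc (-R) R
    · rw [indicator_of_mem ha]
      have := h1 a
      rwa [← ofReal_norm, ENNReal.ofReal_le_one] at this
    · simp [hs a ha, indicator_of_notMem ha]
  let H : ℝ → ℝ → ℂ := fun m a => h a * h (m - a)
  let φ : ℝ → ℝ → ℝ := fun m a => a ^ 2 + (m - a) ^ 2
  let K : ℝ → ℝ → ℂ := fun t m => ∫ a, H m a * e (t * φ m a)
  have hHi : Integrable (fun z : ℝ × ℝ => H z.1 z.2) (volume.prod volume) := by
    have hp : Integrable (fun z : ℝ × ℝ => h z.1 * h (z.2 - z.1)) (volume.prod volume) := by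
      refine (integrable_prod_iff ?_).2 ⟨ae_of_all _ fun a => (hh.comp_sub_right a).const_mul (h a), ?_⟩
      · exact ((hm.comp measurable_fst).mul
          (hm.comp (measurable_snd.sub measurable_fst))).aestronglyMeasurable
      · simp only [norm_mul, integral_const_mul,
          integral_sub_right_eq_self (fun b => ‖h b‖)]
        exact hh.norm.mul_const _
    exact hp.swap
  have hKi : ∀ t, Integrable (K t) := fun t =>
    (hHi.mul_bdd (c := 1) (continuous_e.comp (by fun_prop :
        Continuous fun z : ℝ × ℝ => t * φ z.1 z.2)).aestronglyMeasurable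
      (ae_of_all _ fun z => (norm_e _).le)).integral_prod_left
  have hsq : ∀ x t, E1 h x t ^ 2 = ∫ m, K t m * e (x * m) := fun x t => by
    have hi : Integrable (fun z : ℝ × ℝ => H z.2 z.1 * e (t * φ z.2 z.1) * e (x * z.2))
        (volume.prod volume) :=
      ((hHi.swap).mul_bdd (c := 1) (continuous_e.comp (by fun_prop :
          Continuous fun z : ℝ × ℝ => t * φ z.2 z.1)).aestronglyMeasurable
        (ae_of_all _ fun z => (norm_e _).le)).mul_bdd (c := 1)
        (continuous_e.comp (by fun_prop : Continuous fun z : ℝ × ℝ => x * z.2)).aestronglyMeasurable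
        (ae_of_all _ fun z => (norm_e _).le)
    simp only [K, ← integral_mul_const]
    rw [← integral_integral_swap hi, sq]
    simp only [E1, ← integral_mul_const]
    refine integral_congr_ae (ae_of_all _ fun a => ?_)
    simp only
    rw [← integral_const_mul,
      ← integral_sub_right_eq_self (fun b => h a * e (x * a + t * a ^ 2)
        * (h b * e (x * b + t * b ^ 2))) a]
    refine integral_congr_ae (ae_of_all _ fun m => ?_)
    have e5 : e (x * a + t * a ^ 2) * e (x * (m - a) + t * (m - a) ^ 2)
        = e (t * φ m a) * e (x * m) := by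
      rw [← e_add, ← e_add]; congr 1; simp only [φ]; ring
    simp only [H]
    linear_combination (h a * h (m - a)) * e5
  have hKm : Measurable fun z : ℝ × ℝ => K z.1 z.2 := by
    have hu : Measurable fun q : (ℝ × ℝ) × ℝ => H q.1.2 q.2 * e (q.1.1 * φ q.1.2 q.2) := by
      refine ((hm.comp measurable_snd).mul (hm.comp (by fun_prop))).mul
        (continuous_e.measurable.comp (by fun_prop))
    exact (StronglyMeasurable.integral_prod_right
      (f := fun (z : ℝ × ℝ) a => H z.2 a * e (z.1 * φ z.2 a)) hu.stronglyMeasurable).measurable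
  calc ∫⁻ t, ENNReal.ofReal (win T t) * ∫⁻ x, ‖E1 h x t‖ₑ ^ 4
      ≤ ∫⁻ t, ENNReal.ofReal (win T t) * ∫⁻ m, ‖K t m‖ₑ ^ 2 := by
        refine lintegral_mono fun t => mul_le_mul_right ?_ _
        refine le_trans (le_of_eq (lintegral_congr fun x => ?_)) (lintegral_sq_le (hKi t))
        rw [← hsq, enorm_pow, ← pow_mul]
    _ = ∫⁻ m, ∫⁻ t, ENNReal.ofReal (win T t) * ‖K t m‖ₑ ^ 2 := by
        simp only [← lintegral_const_mul' _ _ ENNReal.ofReal_ne_top]
        rw [lintegral_lintegral_swap]
        exact (((by unfold win; fun_prop : Measurable (win T)).comp measurable_fst).ennreal_ofReal.mul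
          (hKm.enorm.pow_const 2)).aemeasurable
    _ ≤ ∫⁻ m, (Icc (-(2 * R)) (2 * R)).indicator (fun _ =>
          ENNReal.ofReal (T ^ η) * (2 * pwConst η R * pwConst η R)) m := by
        refine lintegral_mono_ae ?_
        filter_upwards [hHi.prod_right_ae] with m hm'
        refine (windowed_sq_le hm' (φ := φ m) (by fun_prop) hT).trans ?_
        have hH : ∀ a, ‖H m a‖ₑ ≤ (Icc (-R) R).indicator (fun _ => (1:ℝ≥0∞)) a := fun a => by
          by_cases ha : a ∈ Icc (-R) R
          · rw [indicator_of_mem ha, enorm_mul]; exact mul_le_one' (h1 _) (h1 _)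
          · simp [H, hs a ha]
        by_cases hM : m ∈ Icc (-(2 * R)) (2 * R)
        · rw [indicator_of_mem hM]
          calc ∫⁻ a, ∫⁻ b, ‖H m a‖ₑ * ‖H m b‖ₑ * ENNReal.ofReal (ker T (φ m a - φ m b))
              ≤ ∫⁻ a in Icc (-R) R, ∫⁻ b in Icc (-R) R, ENNReal.ofReal (T ^ η) *
                  (pw η (a - m / 2) * (pw η (b - a) + pw η (b - (m - a)))) := by
                rw [← lintegral_indicator measurableSet_Icc]
                refine lintegral_mono fun a => ?_
                by_cases ha : a ∈ Icc (-R) R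
                · rw [indicator_of_mem ha, ← lintegral_indicator measurableSet_Icc]
                  refine lintegral_mono fun b => ?_
                  by_cases hb : b ∈ Icc (-R) R
                  · rw [indicator_of_mem hb]
                    have h11 : ‖H m a‖ₑ * ‖H m b‖ₑ ≤ 1 := by
                      have := hH a; have := hH b
                      rw [indicator_of_mem ha] at *
                      rw [indicator_of_mem hb] at *
                      exact mul_le_one' (by assumption) (by assumption)
                    refine (mul_le_mul_left h11 _).trans ?_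
                    rw [one_mul]
                    refine (ker_le_pw hη0 hη1 hT _).trans (mul_le_mul_right ?_ _)
                    have := pw_mul_le hη1 (a - b) (a + b - m)
                    have e6 : φ m a - φ m b = 2 * ((a - b) * (a + b - m)) := by simp only [φ]; ring
                    have e7 : (a - b + (a + b - m)) / 2 = a - m / 2 := by ring
                    rw [e6]
                    rw [e7, show a - b = -(b - a) by ring, pw_neg] at this
                    rw [show a - b = -(b - a) by ring]
                    rw [show b - (m - a) = a + b - m by ring]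
                    exact this
                  · simp [H, hs b hb]
                · simp [H, hs a ha]
            _ ≤ ∫⁻ a in Icc (-R) R, ENNReal.ofReal (T ^ η) * (pw η (a - m / 2) * (2 * pwConst η R)) := by
                refine lintegral_mono fun a => ?_
                have m1 : ∀ c : ℝ, Measurable fun b => pw η (b - c) := fun c =>
                  (measurable_pw η).comp (measurable_id.sub_const c)
                simp only [mul_add]
                rw [lintegral_add_left (((m1 a).const_mul _).const_mul _),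
                  lintegral_const_mul' _ _ ENNReal.ofReal_ne_top,
                  lintegral_const_mul' _ _ ENNReal.ofReal_ne_top,
                  lintegral_const_mul _ (m1 a), lintegral_const_mul _ (m1 (m - a)),
                  two_mul, mul_add, mul_add]
                gcongr
                · exact setLIntegral_pw_le hη1 R a
                · exact setLIntegral_pw_le hη1 R (m - a)
            _ ≤ _ := by
                have m1 : Measurable fun a => pw η (a - m / 2) :=
                  (measurable_pw η).comp (measurable_id.sub_const (m / 2))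
                rw [lintegral_const_mul' _ _ ENNReal.ofReal_ne_top, lintegral_mul_const _ m1,
                  mul_comm (∫⁻ a in Icc (-R) R, pw η (a - m / 2))]
                gcongr
                exact setLIntegral_pw_le hη1 R (m / 2)
        · rw [indicator_of_notMem hM]
          refine le_of_eq ?_
          have hz : ∀ a, H m a = 0 := fun a => by
            by_cases ha : a ∈ Icc (-R) R
            · have : m - a ∉ Icc (-R) R := fun hb => hM ⟨by linarith [ha.1, hb.1], by linarith [ha.2, hb.2]⟩
              simp [H, hs _ this]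
            · simp [H, hs a ha]
          simp [hz]
    _ = _ := by
        rw [lintegral_indicator_const measurableSet_Icc, Real.volume_Icc]
        rw [show 2 * R - -(2 * R) = 4 * R by ring]
        ring

end Vale.Agent.P122.Dir
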