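import Mathlib

/-!
# P122, data regular in one direction: a windowed mean square bound for oscillatory integrals

For any phase `φ`, the mean square in `t` with Gaussian window `T` of `∫ H e(t φ)` is at most
`∫∫ |H||H'| T exp (-π T² (φ - φ')²)`.
-/

noncomputable section

namespace Vale.Agent.P122.Dir

open MeasureTheory Complex Filter Topology
open scoped ENNReal Real

/-- `e(r) = exp (2 π i r)`. -/
def e (r : ℝ) : ℂ := cexp ((2 * π * r : ℝ) * I)

lemma norm_e (r : ℝ) : ‖e r‖ = 1 := Complex.norm_exp_ofReal_mul_I _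

lemma enorm_e (r : ℝ) : ‖e r‖ₑ = 1 := by rw [← ofReal_norm, norm_e]; simp

lemma continuous_e : Continuous e := by unfold e; fun_prop

lemma e_add (r s : ℝ) : e (r + s) = e r * e s := by
  rw [e, e, e, ← Complex.exp_add]; push_cast; ring_nf

/-- The Gaussian window. -/
def win (T t : ℝ) : ℝ := Real.exp (-(π / T ^ 2) * t ^ 2)

/-- The Fourier transform of the window. -/
def ker (T v : ℝ) : ℝ := T * Real.exp (-π * T ^ 2 * v ^ 2)

lemma ker_nonneg {T : ℝ} (hT : 0 ≤ T) (v : ℝ) : 0 ≤ ker T v := mul_nonneg hT (Real.exp_pos _).le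

lemma continuous_ker (T : ℝ) : Continuous (ker T) := by unfold ker; fun_prop

lemma ker_neg (T v : ℝ) : ker T (-v) = ker T v := by simp [ker]

lemma integrable_win {T : ℝ} (hT : 0 < T) : Integrable (win T) :=
  integrable_exp_neg_mul_sq (by positivity)

lemma lintegral_ker {T : ℝ} (hT : 0 < T) : ∫⁻ v, ENNReal.ofReal (ker T v) = 1 := by
  rw [← ofReal_integral_eq_lintegral_ofReal ((integrable_exp_neg_mul_sq
    (b := π * T ^ 2) (by positivity)).const_mul T |>.congr (ae_of_all _ fun v => by simp [ker]))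
    (ae_of_all _ fun v => ker_nonneg hT.le v)]
  simp only [ker, neg_mul]
  rw [integral_const_mul]
  have := integral_gaussian (π * T ^ 2)
  simp only [neg_mul] at this
  rw [this, show π / (π * T ^ 2) = (1 / T) ^ 2 by field_simp, Real.sqrt_sq (by positivity)]
  simp [hT.ne']

lemma integral_win_e {T : ℝ} (hT : 0 < T) (v : ℝ) :
    ∫ t, (win T t : ℂ) * e (t * v) = (ker T v : ℂ) := by
  set a : ℝ := π / T ^ 2 with ha_def
  have ha : 0 < a := by positivity
  have h := integral_cexp_quadratic (b := -(a : ℂ)) (by simpa using ha) (2 * π * v * I) 0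
  have e1 : ∀ t : ℝ, (win T t : ℂ) * e (t * v)
      = cexp (-(a : ℂ) * (t : ℂ) ^ 2 + 2 * π * v * I * t + 0) := fun t => by
    rw [win, ← ha_def, e, Complex.ofReal_exp, ← Complex.exp_add]; push_cast; ring_nf
  simp only [e1]
  rw [h, neg_neg, ← Complex.ofReal_div, show (1 / 2 : ℂ) = ((1 / 2 : ℝ) : ℂ) by norm_num,
    ← Complex.ofReal_cpow (by positivity)]
  have e2 : π / a = T ^ 2 := by rw [ha_def]; field_simp
  rw [e2, ← Real.sqrt_eq_rpow, Real.sqrt_sq hT.le, ker, Complex.ofReal_mul, Complex.ofReal_exp]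
  congr 2
  have : (a : ℂ) ≠ 0 := by exact_mod_cast ha.ne'
  rw [mul_pow, Complex.I_sq]
  field_simp
  rw [ha_def]
  have : (T : ℂ) ≠ 0 := by exact_mod_cast hT.ne'
  push_cast
  field_simp
  ring

variable {X : Type*} [MeasurableSpace X] {μ : Measure X} [SFinite μ]

/-- The windowed mean square of `∫ H e(t φ)`. -/
theorem windowed_sq_le {H : X → ℂ} (hH : Integrable H μ) {φ : X → ℝ} (hφ : Measurable φ)
    {T : ℝ} (hT : 0 < T) :
    ∫⁻ t, ENNReal.ofReal (win T t) * ‖∫ d, H d * e (t * φ d) ∂μ‖ₑ ^ 2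
      ≤ ∫⁻ d, ∫⁻ d', ‖H d‖ₑ * ‖H d'‖ₑ * ENNReal.ofReal (ker T (φ d - φ d')) ∂μ ∂μ := by
  set F : ℝ → ℂ := fun t => ∫ d, H d * e (t * φ d) ∂μ with hF
  let Kk : X × X → ℂ := fun z => H z.1 * starRingEnd ℂ (H z.2)
  have hKk : Integrable Kk (μ.prod μ) := hH.mul_prod
    ((RCLike.conjCLE (K := ℂ)).toContinuousLinearMap.integrable_comp hH)
  have hFc : Continuous F := by
    refine continuous_of_dominated (bound := fun d => ‖H d‖) (fun t => ?_) (fun t => ?_) hH.norm
      (ae_of_all _ fun d => ?_)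
    · exact hH.aestronglyMeasurable.mul
        (continuous_e.measurable.comp (hφ.const_mul t)).aestronglyMeasurable
    · exact ae_of_all _ fun d => by simp [norm_e]
    · exact continuous_const.mul (continuous_e.comp (continuous_id.mul continuous_const))
  have hext : ∀ t, ((‖F t‖ ^ 2 : ℝ) : ℂ) = ∫ z, Kk z * e (t * (φ z.1 - φ z.2)) ∂(μ.prod μ) := by
    intro t
    rw [Complex.ofReal_pow, ← Complex.mul_conj', hF, ← integral_conj, ← integral_prod_mul]
    refine integral_congr_ae (ae_of_all _ fun z => ?_)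
    simp only [Kk, map_mul, e, ← Complex.exp_conj, Complex.conj_ofReal, Complex.conj_I]
    rw [mul_mul_mul_comm, ← Complex.exp_add]
    push_cast; ring_nf
  have hfub : Integrable (Function.uncurry fun (t : ℝ) (z : X × X) =>
      (win T t : ℂ) * (Kk z * e (t * (φ z.1 - φ z.2)))) (volume.prod (μ.prod μ)) := by
    refine Integrable.mono' ((integrable_win hT).mul_prod hKk.norm) ?_ (ae_of_all _ fun q => ?_)
    · have h1 : Measurable fun q : ℝ × X × X => (win T q.1 : ℂ) := by unfold win; fun_prop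
      have h2 : Measurable fun q : ℝ × X × X => e (q.1 * (φ q.2.1 - φ q.2.2)) :=
        continuous_e.measurable.comp (measurable_fst.mul
          ((hφ.comp (measurable_fst.comp measurable_snd)).sub
            (hφ.comp (measurable_snd.comp measurable_snd))))
      exact h1.aestronglyMeasurable.mul
        (hKk.aestronglyMeasurable.comp_snd.mul h2.aestronglyMeasurable)
    · simp only [Function.uncurry, norm_mul, norm_e, mul_one, Complex.norm_real]
      rw [Real.norm_of_nonneg (by unfold win; positivity)]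
  have key : ((∫ t, win T t * ‖F t‖ ^ 2 : ℝ) : ℂ)
      = ∫ z, Kk z * ((ker T (φ z.1 - φ z.2) : ℝ) : ℂ) ∂(μ.prod μ) := by
    rw [← integral_complex_ofReal]
    have : ∀ t : ℝ, ((win T t * ‖F t‖ ^ 2 : ℝ) : ℂ)
        = ∫ z, (win T t : ℂ) * (Kk z * e (t * (φ z.1 - φ z.2))) ∂(μ.prod μ) := fun t => by
      rw [integral_const_mul, ← hext]; push_cast; rfl
    simp only [this]
    rw [integral_integral_swap hfub]
    refine integral_congr_ae (ae_of_all _ fun z => ?_)
    simp only
    rw [← integral_win_e hT, ← integral_const_mul]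
    exact integral_congr_ae (ae_of_all _ fun t => by ring)
  have hint : Integrable fun t => win T t * ‖F t‖ ^ 2 := by
    refine (integrable_win hT).mul_bdd (c := (∫ d, ‖H d‖ ∂μ) ^ 2)
      (hFc.norm.pow 2).aestronglyMeasurable (ae_of_all _ fun t => ?_)
    rw [norm_pow, norm_norm]
    refine pow_le_pow_left₀ (norm_nonneg _) ((norm_integral_le_integral_norm _).trans (le_of_eq ?_)) 2
    simp [norm_e]
  have hw0 : ∀ t, 0 ≤ win T t := fun t => (Real.exp_pos _).le
  calc ∫⁻ t, ENNReal.ofReal (win T t) * ‖F t‖ₑ ^ 2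
      = ∫⁻ t, ENNReal.ofReal (win T t * ‖F t‖ ^ 2) := lintegral_congr fun t => by
        rw [ENNReal.ofReal_mul (hw0 t), ENNReal.ofReal_pow (norm_nonneg _), ofReal_norm]
    _ = ENNReal.ofReal (∫ t, win T t * ‖F t‖ ^ 2) :=
        (ofReal_integral_eq_lintegral_ofReal hint
          (ae_of_all _ fun t => mul_nonneg (hw0 t) (sq_nonneg _))).symm
    _ ≤ ‖∫ z, Kk z * ((ker T (φ z.1 - φ z.2) : ℝ) : ℂ) ∂(μ.prod μ)‖ₑ := by
        rw [← key, ← ofReal_norm, Complex.norm_real]
        exact ENNReal.ofReal_le_ofReal (Real.le_norm_self _)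
    _ ≤ ∫⁻ z, ‖Kk z * ((ker T (φ z.1 - φ z.2) : ℝ) : ℂ)‖ₑ ∂(μ.prod μ) :=
        enorm_integral_le_lintegral_enorm _
    _ = ∫⁻ z, ‖H z.1‖ₑ * ‖H z.2‖ₑ * ENNReal.ofReal (ker T (φ z.1 - φ z.2)) ∂(μ.prod μ) :=
        lintegral_congr fun z => by
          have hk : ‖((ker T (φ z.1 - φ z.2) : ℝ) : ℂ)‖ₑ
              = ENNReal.ofReal (ker T (φ z.1 - φ z.2)) := by
            rw [← ofReal_norm, Complex.norm_real,
              Real.norm_of_nonneg (ker_nonneg hT.le _)]
          simp only [Kk, enorm_mul, RCLike.enorm_conj, hk]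
    _ = _ := by
        rw [lintegral_prod]
        exact (hH.aestronglyMeasurable.enorm.comp_fst.mul hH.aestronglyMeasurable.enorm.comp_snd).mul
          (((continuous_ker T).measurable.comp ((hφ.comp measurable_fst).sub
            (hφ.comp measurable_snd))).ennreal_ofReal.aemeasurable)

/-- Half of Plancherel's theorem on the line. -/
theorem lintegral_sq_le {k : ℝ → ℂ} (hk : Integrable k) :
    ∫⁻ x, ‖∫ ξ, k ξ * e (x * ξ)‖ₑ ^ 2 ≤ ∫⁻ ξ, ‖k ξ‖ₑ ^ 2 := by
  set G : ℝ → ℂ := fun x => ∫ ξ, k ξ * e (x * ξ)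
  have hGc : Continuous G := by
    refine continuous_of_dominated (bound := fun d => ‖k d‖) (fun t => ?_) (fun t => ?_) hk.norm
      (ae_of_all _ fun d => ?_)
    · exact hk.aestronglyMeasurable.mul
        (continuous_e.measurable.comp (measurable_id.const_mul t)).aestronglyMeasurable
    · exact ae_of_all _ fun d => by simp [norm_e]
    · exact continuous_const.mul (continuous_e.comp (continuous_id.mul continuous_const))
  set T : ℕ → ℝ := fun n => (n : ℝ) + 1
  have hbd : ∀ n, ∫⁻ x, ENNReal.ofReal (win (T n) x) * ‖G x‖ₑ ^ 2 ≤ ∫⁻ ξ, ‖k ξ‖ₑ ^ 2 := fun n => by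
    have hT : 0 < T n := by positivity
    refine (windowed_sq_le hk measurable_id hT).trans ?_
    have hkm := hk.aestronglyMeasurable.enorm
    have hK : ∀ a, ∫⁻ b, ENNReal.ofReal (ker (T n) (a - b)) = 1 := fun a => by
      rw [lintegral_sub_left_eq_self (fun v => ENNReal.ofReal (ker (T n) v)) a, lintegral_ker hT]
    have hK' : ∀ b, ∫⁻ a, ENNReal.ofReal (ker (T n) (a - b)) = 1 := fun b => by
      rw [lintegral_sub_right_eq_self (fun v => ENNReal.ofReal (ker (T n) v)) b, lintegral_ker hT]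
    have hKm : Measurable fun z : ℝ × ℝ => ENNReal.ofReal (ker (T n) (z.1 - z.2)) :=
      ((continuous_ker _).comp (by fun_prop)).measurable.ennreal_ofReal
    calc ∫⁻ a, ∫⁻ b, ‖k a‖ₑ * ‖k b‖ₑ * ENNReal.ofReal (ker (T n) (id a - id b))
        ≤ ∫⁻ a, ∫⁻ b, (‖k a‖ₑ ^ 2 * ENNReal.ofReal (ker (T n) (a - b))
            + ‖k b‖ₑ ^ 2 * ENNReal.ofReal (ker (T n) (a - b))) / 2 := by
          refine lintegral_mono fun a => lintegral_mono fun b => ?_
          rw [ENNReal.le_div_iff_mul_le (Or.inl two_ne_zero) (Or.inl ENNReal.ofNat_ne_top),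
            ← add_mul, id, id]
          calc ‖k a‖ₑ * ‖k b‖ₑ * ENNReal.ofReal (ker (T n) (a - b)) * 2
              = (2 * (‖k a‖ₑ * ‖k b‖ₑ)) * ENNReal.ofReal (ker (T n) (a - b)) := by ring
            _ ≤ _ := by
              refine mul_le_mul_left ?_ _
              rw [← ofReal_norm, ← ofReal_norm, ← ENNReal.ofReal_mul (norm_nonneg _),
                ← ENNReal.ofReal_pow (norm_nonneg _), ← ENNReal.ofReal_pow (norm_nonneg _),
                ← ENNReal.ofReal_add (sq_nonneg _) (sq_nonneg _),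
                show (2 : ℝ≥0∞) = ENNReal.ofReal 2 by simp, ← ENNReal.ofReal_mul zero_le_two]
              exact ENNReal.ofReal_le_ofReal (by nlinarith [sq_nonneg (‖k a‖ - ‖k b‖)])
      _ = ((∫⁻ a, ∫⁻ b, ‖k a‖ₑ ^ 2 * ENNReal.ofReal (ker (T n) (a - b)))
            + ∫⁻ a, ∫⁻ b, ‖k b‖ₑ ^ 2 * ENNReal.ofReal (ker (T n) (a - b))) / 2 := by
          simp only [div_eq_mul_inv]
          simp only [lintegral_mul_const' _ _ (ENNReal.inv_ne_top.2 two_ne_zero)]
          congr 1
          have m1 : AEMeasurable (fun z : ℝ × ℝ => ‖k z.1‖ₑ ^ 2 *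
              ENNReal.ofReal (ker (T n) (z.1 - z.2))) (volume.prod volume) :=
            (hkm.comp_fst.pow_const 2).mul hKm.aemeasurable
          rw [← lintegral_add_left' m1.lintegral_prod_right']
          refine lintegral_congr fun a => ?_
          exact lintegral_add_left' ((hKm.comp measurable_prodMk_left).const_mul _).aemeasurable _
      _ = ((∫⁻ a, ‖k a‖ₑ ^ 2) + ∫⁻ b, ‖k b‖ₑ ^ 2) / 2 := by
          congr 2
          · refine lintegral_congr fun a => ?_
            rw [lintegral_const_mul' _ _ (by simp), hK, mul_one]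
          · rw [lintegral_lintegral_swap]
            · refine lintegral_congr fun b => ?_
              rw [lintegral_const_mul' _ _ (by simp), hK', mul_one]
            · exact (hkm.comp_snd.pow_const 2).mul hKm.aemeasurable
      _ = _ := by rw [← two_mul, mul_comm, ENNReal.mul_div_cancel_right two_ne_zero ENNReal.ofNat_ne_top]
  have hlim : ∀ x, Tendsto (fun n => ENNReal.ofReal (win (T n) x) * ‖G x‖ₑ ^ 2) atTop
      (𝓝 (‖G x‖ₑ ^ 2)) := fun x => by
    have h0 : Tendsto (fun n => (T n)⁻¹) atTop (𝓝 0) := by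
      simpa [T] using (tendsto_one_div_add_atTop_nhds_zero_nat (𝕜 := ℝ))
    have h1 : Tendsto (fun n => win (T n) x) atTop (𝓝 1) := by
      have := (Real.continuous_exp.tendsto _).comp ((((h0.pow 2).const_mul π).neg).mul_const (x ^ 2))
      simp only [zero_pow two_ne_zero, mul_zero, neg_zero, zero_mul, Real.exp_zero] at this
      refine this.congr fun n => ?_
      simp only [Function.comp, win, inv_pow, div_eq_mul_inv]
    have := ENNReal.Tendsto.mul_const (b := ‖G x‖ₑ ^ 2) ((ENNReal.continuous_ofReal.tendsto _).comp h1)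
      (Or.inr (by simp))
    simpa using this
  calc ∫⁻ x, ‖G x‖ₑ ^ 2
      = ∫⁻ x, liminf (fun n => ENNReal.ofReal (win (T n) x) * ‖G x‖ₑ ^ 2) atTop :=
        lintegral_congr fun x => ((hlim x).liminf_eq).symm
    _ ≤ liminf (fun n => ∫⁻ x, ENNReal.ofReal (win (T n) x) * ‖G x‖ₑ ^ 2) atTop :=
        lintegral_liminf_le fun n => by unfold win; fun_prop
    _ ≤ _ := Filter.liminf_le_of_frequently_le' (Frequently.of_forall hbd)

end Vale.Agent.P122.Dir
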