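import Vale.Agent.P122.Dir.Osc

/-!
# P122, data regular in one direction: mean square and fourth power bounds on the paraboloid
-/

noncomputable section

namespace Vale.Agent.P122.Dir

open MeasureTheory Complex Filter Topology Set
open scoped ENNReal Real

/-- `|ξ|²`. -/
def nsq (ξ : ℝ × ℝ) : ℝ := ξ.1 ^ 2 + ξ.2 ^ 2

/-- Extension from the paraboloid. -/
def EP (g : ℝ × ℝ → ℂ) (x : ℝ × ℝ) (t : ℝ) : ℂ :=
  ∫ ξ, g ξ * e (x.1 * ξ.1 + x.2 * ξ.2 + t * nsq ξ)

lemma continuous_EP {g : ℝ × ℝ → ℂ} (hg : Integrable g) :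
    Continuous fun z : (ℝ × ℝ) × ℝ => EP g z.1 z.2 := by
  refine continuous_of_dominated (bound := fun a => ‖g a‖) (fun z => ?_) (fun z => ?_) hg.norm
    (ae_of_all _ fun a => ?_)
  · exact hg.aestronglyMeasurable.mul
      (continuous_e.comp (by unfold nsq; fun_prop)).aestronglyMeasurable
  · exact ae_of_all _ fun a => by simp [norm_e]
  · exact continuous_const.mul (continuous_e.comp (by fun_prop))

lemma enorm_EP_le (g : ℝ × ℝ → ℂ) (x : ℝ × ℝ) (t : ℝ) : ‖EP g x t‖ₑ ≤ ∫⁻ ξ, ‖g ξ‖ₑ :=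
  (enorm_integral_le_lintegral_enorm _).trans (le_of_eq (by simp [enorm_e]))

/-- Half of Plancherel's theorem in the plane. -/
theorem lintegral_sq_le₂ {k : ℝ × ℝ → ℂ} (hm : Measurable k) (hk : Integrable k) :
    ∫⁻ x : ℝ × ℝ, ‖∫ ξ, k ξ * e (x.1 * ξ.1 + x.2 * ξ.2)‖ₑ ^ 2 ≤ ∫⁻ ξ, ‖k ξ‖ₑ ^ 2 := by
  let I : ℝ → ℝ → ℂ := fun x₂ a => ∫ b, k (a, b) * e (x₂ * b)
  have hkb : ∀ x₂ : ℝ, Integrable (fun ξ : ℝ × ℝ => k ξ * e (x₂ * ξ.2)) (volume.prod volume) :=
    fun x₂ => hk.mul_bdd (c := 1) (continuous_e.comp (by fun_prop)).aestronglyMeasurable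
      (ae_of_all _ fun a => (norm_e _).le)
  have hIi : ∀ x₂, Integrable (I x₂) := fun x₂ => (hkb x₂).integral_prod_left
  have hEq : ∀ x : ℝ × ℝ, ∫ ξ, k ξ * e (x.1 * ξ.1 + x.2 * ξ.2) = ∫ a, I x.2 a * e (x.1 * a) := by
    intro x
    rw [Measure.volume_eq_prod, integral_prod]
    · refine integral_congr_ae (ae_of_all _ fun a => ?_)
      simp only [I, ← integral_mul_const, e_add]
      exact integral_congr_ae (ae_of_all _ fun b => by ring)
    · exact hk.mul_bdd (c := 1) (continuous_e.comp (by fun_prop)).aestronglyMeasurable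
        (ae_of_all _ fun a => (norm_e _).le)
  have hIm : Measurable fun z : ℝ × ℝ => I z.1 z.2 := by
    have hu : Measurable fun q : (ℝ × ℝ) × ℝ => k (q.1.2, q.2) * e (q.1.1 * q.2) :=
      (hm.comp (by fun_prop)).mul (continuous_e.measurable.comp (by fun_prop))
    exact (StronglyMeasurable.integral_prod_right
      (f := fun (z : ℝ × ℝ) b => k (z.2, b) * e (z.1 * b)) hu.stronglyMeasurable).measurable
  have hmeas : Measurable fun x : ℝ × ℝ => ∫ a, I x.2 a * e (x.1 * a) := by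
    have hu : Measurable fun q : (ℝ × ℝ) × ℝ => I q.1.2 q.2 * e (q.1.1 * q.2) :=
      (hIm.comp (by fun_prop : Measurable fun q : (ℝ × ℝ) × ℝ => (q.1.2, q.2))).mul
        (continuous_e.measurable.comp (by fun_prop))
    exact (StronglyMeasurable.integral_prod_right
      (f := fun (z : ℝ × ℝ) a => I z.2 a * e (z.1 * a)) hu.stronglyMeasurable).measurable
  simp only [hEq]
  calc ∫⁻ x : ℝ × ℝ, ‖∫ a, I x.2 a * e (x.1 * a)‖ₑ ^ 2
      = ∫⁻ x₂, ∫⁻ x₁, ‖∫ a, I x₂ a * e (x₁ * a)‖ₑ ^ 2 := by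
        rw [Measure.volume_eq_prod, lintegral_prod_symm _ (hmeas.enorm.pow_const 2).aemeasurable]
    _ ≤ ∫⁻ x₂, ∫⁻ a, ‖I x₂ a‖ₑ ^ 2 := lintegral_mono fun x₂ => lintegral_sq_le (hIi x₂)
    _ = ∫⁻ a, ∫⁻ x₂, ‖I x₂ a‖ₑ ^ 2 := lintegral_lintegral_swap (hIm.enorm.pow_const 2).aemeasurable
    _ ≤ ∫⁻ a, ∫⁻ b, ‖k (a, b)‖ₑ ^ 2 := by
        refine lintegral_mono_ae ?_
        rw [Measure.volume_eq_prod] at hk
        filter_upwards [hk.prod_right_ae] with a ha
        exact lintegral_sq_le ha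
    _ = _ := by
        rw [Measure.volume_eq_prod, lintegral_prod _ (hm.enorm.pow_const 2).aemeasurable]

lemma lintegral_sq_EP_le {g : ℝ × ℝ → ℂ} (hm : Measurable g) (hg : Integrable g) (t : ℝ) :
    ∫⁻ x, ‖EP g x t‖ₑ ^ 2 ≤ ∫⁻ ξ, ‖g ξ‖ₑ ^ 2 := by
  have hk : Integrable fun ξ => g ξ * e (t * nsq ξ) :=
    hg.mul_bdd (c := 1) (continuous_e.comp (by unfold nsq; fun_prop)).aestronglyMeasurable
      (ae_of_all _ fun a => (norm_e _).le)
  have := lintegral_sq_le₂ (hm.mul (continuous_e.measurable.comp (by unfold nsq; fun_prop))) hk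
  simp only [Pi.mul_apply, Function.comp_apply, enorm_mul, enorm_e, mul_one] at this
  refine le_trans (le_of_eq (lintegral_congr fun x => ?_)) this
  congr 2
  refine integral_congr_ae (ae_of_all _ fun a => ?_)
  simp only [e_add]; ring

/-- Integrals of a radial function of the square radius. -/
lemma lintegral_nsq_le {ψ : ℝ → ℝ≥0∞} (hψ : Measurable ψ) :
    ∫⁻ ξ : ℝ × ℝ, ψ (2 * nsq ξ) ≤ ENNReal.ofReal (π / 2) * ∫⁻ r, ψ r := by
  rw [← lintegral_comp_polarCoord_symm]
  have hsq : ∀ q : ℝ × ℝ, 2 * nsq (polarCoord.symm q) = 2 * q.1 ^ 2 := fun q => by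
    rw [polarCoord_symm_apply, nsq, mul_pow, mul_pow, ← mul_add, Real.cos_sq_add_sin_sq, mul_one]
  simp only [hsq, smul_eq_mul, polarCoord_target]
  rw [Measure.volume_eq_prod, ← Measure.prod_restrict, lintegral_prod]
  · calc ∫⁻ r in Ioi (0:ℝ), ∫⁻ _θ in Ioo (-π) π, ENNReal.ofReal r * ψ (2 * r ^ 2)
        = ENNReal.ofReal (π / 2) * ∫⁻ r in Ioi (0:ℝ), ENNReal.ofReal |4 * r| * ψ (2 * r ^ 2) := by
          rw [← lintegral_const_mul' _ _ ENNReal.ofReal_ne_top]
          refine setLIntegral_congr_fun measurableSet_Ioi fun r hr => ?_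
          have hr' : (0:ℝ) < r := hr
          rw [setLIntegral_const, Real.volume_Ioo, abs_of_pos (by positivity), ← mul_assoc,
            ← ENNReal.ofReal_mul (by positivity), mul_comm, ← mul_assoc,
            ← ENNReal.ofReal_mul (by linarith [Real.pi_pos])]
          congr 2; ring
      _ = ENNReal.ofReal (π / 2) * ∫⁻ r in (fun r : ℝ => 2 * r ^ 2) '' Ioi 0, ψ r := by
          rw [lintegral_image_eq_lintegral_abs_deriv_mul measurableSet_Ioi (f' := fun r => 4 * r)]
          · intro r _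
            exact (((hasDerivAt_pow 2 r).const_mul 2).congr_deriv (by ring)).hasDerivWithinAt
          · intro a ha b hb hab
            have ha' : (0:ℝ) < a := ha
            have hb' : (0:ℝ) < b := hb
            simp only at hab
            nlinarith [mul_pos ha' hb']
      _ ≤ _ := mul_le_mul_right (setLIntegral_le_lintegral _ _) _
  · exact (measurable_fst.ennreal_ofReal.mul (hψ.comp (by fun_prop))).aemeasurable

/-- The fourth power bound on the paraboloid, global in time. -/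
theorem L4_EP {g : ℝ × ℝ → ℂ} (hm : Measurable g) (hg : Integrable g) {B : ℝ≥0∞}
    (hB : ∀ ξ, ‖g ξ‖ₑ ≤ B) :
    ∫⁻ t, ∫⁻ x, ‖EP g x t‖ₑ ^ 4 ≤ 2 * B ^ 2 * (∫⁻ ξ, ‖g ξ‖ₑ) ^ 2 := by
  let H : ℝ × ℝ → ℝ × ℝ → ℂ := fun m ξ => g ξ * g (m - ξ)
  let φ : ℝ × ℝ → ℝ × ℝ → ℝ := fun m ξ => nsq ξ + nsq (m - ξ)
  let K : ℝ → ℝ × ℝ → ℂ := fun t m => ∫ ξ, H m ξ * e (t * φ m ξ)
  have hHm : Measurable fun z : (ℝ × ℝ) × (ℝ × ℝ) => H z.1 z.2 :=
    (hm.comp measurable_snd).mul (hm.comp (measurable_fst.sub measurable_snd))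
  have hφc : Continuous fun z : (ℝ × ℝ) × (ℝ × ℝ) => φ z.1 z.2 := by
    simp only [φ, nsq]; fun_prop
  have hHi : Integrable (fun z : (ℝ × ℝ) × (ℝ × ℝ) => H z.1 z.2) (volume.prod volume) := by
    have hp : Integrable (fun z : (ℝ × ℝ) × (ℝ × ℝ) => g z.1 * g (z.2 - z.1))
        (volume.prod volume) := by
      refine (integrable_prod_iff ?_).2 ⟨ae_of_all _ fun a => (hg.comp_sub_right a).const_mul (g a), ?_⟩
      · exact ((hm.comp measurable_fst).mul
          (hm.comp (measurable_snd.sub measurable_fst))).aestronglyMeasurable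
      · simp only [norm_mul, integral_const_mul, integral_sub_right_eq_self (fun b => ‖g b‖)]
        exact hg.norm.mul_const _
    exact hp.swap
  have hHt : ∀ t, Integrable (fun z : (ℝ × ℝ) × (ℝ × ℝ) => H z.1 z.2 * e (t * φ z.1 z.2))
      (volume.prod volume) := fun t =>
    hHi.mul_bdd (c := 1) (continuous_e.comp (continuous_const.mul hφc)).aestronglyMeasurable
      (ae_of_all _ fun z => (norm_e _).le)
  have hKi : ∀ t, Integrable (K t) := fun t => (hHt t).integral_prod_left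
  have hKm : Measurable fun z : ℝ × (ℝ × ℝ) => K z.1 z.2 := by
    have hu : Measurable fun q : (ℝ × (ℝ × ℝ)) × (ℝ × ℝ) =>
        H q.1.2 q.2 * e (q.1.1 * φ q.1.2 q.2) :=
      (hHm.comp (by fun_prop : Measurable fun q : (ℝ × (ℝ × ℝ)) × (ℝ × ℝ) => (q.1.2, q.2))).mul
        (continuous_e.measurable.comp (by simp only [φ, nsq]; fun_prop))
    exact (StronglyMeasurable.integral_prod_right
      (f := fun (z : ℝ × (ℝ × ℝ)) ξ => H z.2 ξ * e (z.1 * φ z.2 ξ)) hu.stronglyMeasurable).measurable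
  have hsq : ∀ x t, EP g x t ^ 2 = ∫ m, K t m * e (x.1 * m.1 + x.2 * m.2) := fun x t => by
    have hi : Integrable (fun z : (ℝ × ℝ) × (ℝ × ℝ) =>
        H z.2 z.1 * e (t * φ z.2 z.1) * e (x.1 * z.2.1 + x.2 * z.2.2)) (volume.prod volume) :=
      (hHt t).swap.mul_bdd (c := 1) (continuous_e.comp (by fun_prop)).aestronglyMeasurable
        (ae_of_all _ fun z => (norm_e _).le)
    simp only [K, ← integral_mul_const]
    rw [← integral_integral_swap hi, sq]
    simp only [EP, ← integral_mul_const]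
    refine integral_congr_ae (ae_of_all _ fun a => ?_)
    simp only
    rw [← integral_const_mul,
      ← integral_sub_right_eq_self (fun b => g a * e (x.1 * a.1 + x.2 * a.2 + t * nsq a)
        * (g b * e (x.1 * b.1 + x.2 * b.2 + t * nsq b))) a]
    refine integral_congr_ae (ae_of_all _ fun m => ?_)
    have e5 : e (x.1 * a.1 + x.2 * a.2 + t * nsq a)
          * e (x.1 * (m - a).1 + x.2 * (m - a).2 + t * nsq (m - a))
        = e (t * φ m a) * e (x.1 * m.1 + x.2 * m.2) := by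
      rw [← e_add, ← e_add]; congr 1; simp only [φ, Prod.fst_sub, Prod.snd_sub]; ring
    simp only [H]
    linear_combination (g a * g (m - a)) * e5
  have hker : ∀ {T : ℝ}, 0 < T → ∀ m ξ,
      ∫⁻ η, ENNReal.ofReal (ker T (φ m ξ - φ m η)) ≤ ENNReal.ofReal (π / 2) := fun {T} hT m ξ => by
    set c := φ m ξ - nsq m / 2
    have e1 : ∀ η : ℝ × ℝ, φ m ξ - φ m η = c - 2 * nsq (η - (m.1 / 2, m.2 / 2)) := fun η => by
      simp only [c, φ, nsq, Prod.fst_sub, Prod.snd_sub]; ring
    simp only [e1]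
    rw [lintegral_sub_right_eq_self (fun η => ENNReal.ofReal (ker T (c - 2 * nsq η)))]
    refine (lintegral_nsq_le (ψ := fun r => ENNReal.ofReal (ker T (c - r)))
      ((continuous_ker T).comp (by fun_prop)).measurable.ennreal_ofReal).trans (le_of_eq ?_)
    rw [lintegral_sub_left_eq_self (fun v => ENNReal.ofReal (ker T v)) c, lintegral_ker hT, mul_one]
  have hwin : ∀ {T : ℝ}, 0 < T →
      ∫⁻ t, ENNReal.ofReal (win T t) * ∫⁻ x, ‖EP g x t‖ₑ ^ 4
        ≤ 2 * B ^ 2 * (∫⁻ ξ, ‖g ξ‖ₑ) ^ 2 := fun {T} hT => by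
    have hHp : ∫⁻ m, ∫⁻ ξ, ‖H m ξ‖ₑ = (∫⁻ ξ, ‖g ξ‖ₑ) ^ 2 := by
      rw [lintegral_lintegral_swap hHm.enorm.aemeasurable, sq]
      simp only [H, enorm_mul]
      rw [← lintegral_mul_const _ hm.enorm]
      refine lintegral_congr fun ξ => ?_
      rw [lintegral_const_mul' _ _ enorm_ne_top,
        lintegral_sub_right_eq_self (fun η => ‖g η‖ₑ) ξ]
    calc ∫⁻ t, ENNReal.ofReal (win T t) * ∫⁻ x, ‖EP g x t‖ₑ ^ 4
        ≤ ∫⁻ t, ENNReal.ofReal (win T t) * ∫⁻ m, ‖K t m‖ₑ ^ 2 := by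
          refine lintegral_mono fun t => mul_le_mul_right ?_ _
          refine le_trans (le_of_eq (lintegral_congr fun x => ?_)) (lintegral_sq_le₂
            (hKm.comp measurable_prodMk_left) (hKi t))
          rw [← hsq, enorm_pow, ← pow_mul]
      _ = ∫⁻ m, ∫⁻ t, ENNReal.ofReal (win T t) * ‖K t m‖ₑ ^ 2 := by
          simp only [← lintegral_const_mul' _ _ ENNReal.ofReal_ne_top]
          rw [lintegral_lintegral_swap]
          exact (((by unfold win; fun_prop : Measurable (win T)).comp measurable_fst).ennreal_ofReal.mul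
            (hKm.enorm.pow_const 2)).aemeasurable
      _ ≤ ∫⁻ m, B ^ 2 * ENNReal.ofReal (π / 2) * ∫⁻ ξ, ‖H m ξ‖ₑ := by
          refine lintegral_mono_ae ?_
          filter_upwards [hHi.prod_right_ae] with m hm'
          refine (windowed_sq_le hm' (φ := φ m) (by simp only [φ, nsq]; fun_prop) hT).trans ?_
          have hHmm : Measurable fun ξ => ‖H m ξ‖ₑ := (hHm.comp measurable_prodMk_left).enorm
          rw [← lintegral_const_mul _ hHmm]
          refine lintegral_mono fun ξ => ?_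
          calc ∫⁻ η, ‖H m ξ‖ₑ * ‖H m η‖ₑ * ENNReal.ofReal (ker T (φ m ξ - φ m η))
              ≤ ∫⁻ η, ‖H m ξ‖ₑ * B ^ 2 * ENNReal.ofReal (ker T (φ m ξ - φ m η)) := by
                refine lintegral_mono fun η => mul_le_mul_left (mul_le_mul_right ?_ _) _
                simp only [H, enorm_mul, sq]
                exact mul_le_mul' (hB _) (hB _)
            _ ≤ ‖H m ξ‖ₑ * B ^ 2 * ENNReal.ofReal (π / 2) := by
                have hkm : Measurable fun η => ENNReal.ofReal (ker T (φ m ξ - φ m η)) :=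
                  ((continuous_ker T).measurable.comp (measurable_const.sub
                    (hφc.measurable.comp measurable_prodMk_left))).ennreal_ofReal
                rw [lintegral_const_mul _ hkm]
                exact mul_le_mul_right (hker hT m ξ) _
            _ = _ := by ring
      _ ≤ _ := by
          rw [lintegral_const_mul _ hHm.enorm.lintegral_prod_right', hHp]
          refine mul_le_mul_left ?_ _
          rw [mul_comm]
          exact mul_le_mul_left ((ENNReal.ofReal_le_ofReal (by linarith [Real.pi_le_four] :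
            π / 2 ≤ 2)).trans_eq (by simp)) _
  set G : ℝ → ℝ≥0∞ := fun t => ∫⁻ x, ‖EP g x t‖ₑ ^ 4
  have hGm : Measurable G := by
    have : Measurable fun z : ℝ × (ℝ × ℝ) => ‖EP g z.2 z.1‖ₑ ^ 4 :=
      (((continuous_EP hg).measurable.comp (measurable_snd.prodMk measurable_fst)).enorm.pow_const 4)
    exact this.lintegral_prod_right'
  have hlim : ∀ t, Tendsto (fun n : ℕ => ENNReal.ofReal (win ((n:ℝ) + 1) t) * G t) atTop (𝓝 (G t)) := by
    intro t
    have h0 : Tendsto (fun n : ℕ => ((n:ℝ) + 1)⁻¹) atTop (𝓝 0) := by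
      simpa using (tendsto_one_div_add_atTop_nhds_zero_nat (𝕜 := ℝ))
    have h1 : Tendsto (fun n : ℕ => win ((n:ℝ) + 1) t) atTop (𝓝 1) := by
      have := (Real.continuous_exp.tendsto _).comp ((((h0.pow 2).const_mul π).neg).mul_const (t ^ 2))
      simp only [zero_pow two_ne_zero, mul_zero, neg_zero, zero_mul, Real.exp_zero] at this
      refine this.congr fun n => ?_
      simp only [Function.comp, win, inv_pow, div_eq_mul_inv]
    have := ENNReal.Tendsto.mul_const (b := G t) ((ENNReal.continuous_ofReal.tendsto _).comp h1)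
      (Or.inl (by simp))
    simpa using this
  calc ∫⁻ t, G t
      = ∫⁻ t, liminf (fun n : ℕ => ENNReal.ofReal (win ((n:ℝ) + 1) t) * G t) atTop :=
        lintegral_congr fun t => ((hlim t).liminf_eq).symm
    _ ≤ liminf (fun n : ℕ => ∫⁻ t, ENNReal.ofReal (win ((n:ℝ) + 1) t) * G t) atTop :=
        lintegral_liminf_le fun n => (by unfold win; fun_prop : Measurable (win ((n:ℝ) + 1))).ennreal_ofReal.mul hGm
    _ ≤ _ := Filter.liminf_le_of_frequently_le' (Frequently.of_forall fun n => hwin (by positivity))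

end Vale.Agent.P122.Dir
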