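import Vale.Agent.P122.Dir.Line
import Vale.Agent.P122.Dir.Plane

/-!
# P122, data regular in one direction: smoothing in that direction and the resulting packets
-/

noncomputable section

namespace Vale.Agent.P122.Dir

open MeasureTheory Complex Filter Topology Set
open scoped ENNReal Real

/-- Data bounded by one on a square, with `L¹` modulus `|h| ^ s` in the second variable. -/
structure Nice (g : ℝ × ℝ → ℂ) (R s : ℝ) : Prop where
  meas : Measurable g
  bdd : ∀ ξ, ‖g ξ‖ ≤ 1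
  supp : ∀ ξ : ℝ × ℝ, ξ.1 ∉ Icc (-R) R ∨ ξ.2 ∉ Icc (-R) R → g ξ = 0
  modulus : ∀ h : ℝ, ∫⁻ ξ : ℝ × ℝ, ‖g (ξ.1, ξ.2 + h) - g ξ‖ₑ ≤ ENNReal.ofReal (|h| ^ s)

lemma Nice.enorm_le {g : ℝ × ℝ → ℂ} {R s : ℝ} (hg : Nice g R s) (ξ : ℝ × ℝ) : ‖g ξ‖ₑ ≤ 1 := by
  rw [← ofReal_norm, ENNReal.ofReal_le_one]; exact hg.bdd ξ

lemma Nice.integrable {g : ℝ × ℝ → ℂ} {R s : ℝ} (hg : Nice g R s) : Integrable g := by
  refine ((integrable_indicator_iff (measurableSet_Icc.prod measurableSet_Icc)).2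
    (integrableOn_const (C := (1:ℝ)) (s := Icc (-R) R ×ˢ Icc (-R) R)
      ((isCompact_Icc.prod isCompact_Icc).measure_lt_top).ne)).mono' hg.meas.aestronglyMeasurable
    (ae_of_all _ fun ξ => ?_)
  by_cases h : ξ ∈ Icc (-R) R ×ˢ Icc (-R) R
  · rw [indicator_of_mem h]; exact hg.bdd ξ
  · rw [indicator_of_notMem h, hg.supp ξ (Classical.not_and_iff_not_or_not.1 fun hc => h ⟨hc.1, hc.2⟩)]
    simp

/-- The unit Gaussian. -/
def gs (u : ℝ) : ℝ := Real.exp (-π * u ^ 2)

lemma gs_pos (u : ℝ) : 0 < gs u := Real.exp_pos _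

lemma continuous_gs : Continuous gs := by unfold gs; fun_prop

lemma integrable_gs : Integrable gs := integrable_exp_neg_mul_sq Real.pi_pos

lemma integral_gs : ∫ u, gs u = 1 := by
  unfold gs; rw [integral_gaussian, div_self Real.pi_ne_zero, Real.sqrt_one]

/-- The first moment constant of the Gaussian. -/
def momC : ℝ≥0∞ := ∫⁻ u, ENNReal.ofReal (gs u * (1 + |u|))

lemma momC_ne_top : momC ≠ ⊤ := by
  have h1 : Integrable fun u : ℝ => u * Real.exp (-π * u ^ 2) :=
    integrable_mul_exp_neg_mul_sq Real.pi_pos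
  have h : Integrable fun u => gs u * (1 + |u|) := by
    refine (integrable_gs.add h1.norm).congr (ae_of_all _ fun u => ?_)
    simp only [Pi.add_apply, Real.norm_eq_abs, abs_mul, Real.abs_exp, gs]; ring
  rw [momC, ← ofReal_integral_eq_lintegral_ofReal h (ae_of_all _ fun u => by
    have := gs_pos u; positivity)]
  exact ENNReal.ofReal_ne_top

/-- Gaussian smoothing in the second variable at scale `ε`. -/
def smo (g : ℝ × ℝ → ℂ) (ε : ℝ) (ξ : ℝ × ℝ) : ℂ := ∫ u, (gs u : ℂ) * g (ξ.1, ξ.2 + ε * u)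

lemma measurable_smo {g : ℝ × ℝ → ℂ} (hm : Measurable g) (ε : ℝ) : Measurable (smo g ε) := by
  have hu : Measurable fun q : (ℝ × ℝ) × ℝ => (gs q.2 : ℂ) * g (q.1.1, q.1.2 + ε * q.2) :=
    ((Complex.continuous_ofReal.comp continuous_gs).measurable.comp measurable_snd).mul
      (hm.comp (by fun_prop))
  exact (StronglyMeasurable.integral_prod_right
    (f := fun (ξ : ℝ × ℝ) u => (gs u : ℂ) * g (ξ.1, ξ.2 + ε * u)) hu.stronglyMeasurable).measurable

lemma Nice.integrable_slice {g : ℝ × ℝ → ℂ} {R s : ℝ} (hg : Nice g R s) (ε : ℝ) (ξ : ℝ × ℝ) :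
    Integrable fun u => (gs u : ℂ) * g (ξ.1, ξ.2 + ε * u) :=
  integrable_gs.ofReal.mul_bdd (c := 1) (hg.meas.comp (by fun_prop)).aestronglyMeasurable
    (ae_of_all _ fun u => hg.bdd _)

lemma Nice.norm_smo_le {g : ℝ × ℝ → ℂ} {R s : ℝ} (hg : Nice g R s) (ε : ℝ) (ξ : ℝ × ℝ) :
    ‖smo g ε ξ‖ ≤ 1 := by
  refine (norm_integral_le_of_norm_le integrable_gs (ae_of_all _ fun u => ?_)).trans integral_gs.le
  rw [norm_mul, Complex.norm_real, Real.norm_of_nonneg (gs_pos u).le]
  exact mul_le_of_le_one_right (gs_pos u).le (hg.bdd _)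

lemma Nice.sub_smo_le {g : ℝ × ℝ → ℂ} {R s : ℝ} (hg : Nice g R s) (hs0 : 0 ≤ s) (hs1 : s ≤ 1)
    {ε : ℝ} (hε : 0 ≤ ε) :
    ∫⁻ ξ, ‖g ξ - smo g ε ξ‖ₑ ≤ ENNReal.ofReal (ε ^ s) * momC := by
  have hm2 : Measurable fun q : (ℝ × ℝ) × ℝ =>
      ENNReal.ofReal (gs q.2) * ‖g (q.1.1, q.1.2 + ε * q.2) - g q.1‖ₑ :=
    (continuous_gs.measurable.comp measurable_snd).ennreal_ofReal.mul
      ((hg.meas.comp (by fun_prop)).sub (hg.meas.comp measurable_fst)).enorm
  calc ∫⁻ ξ, ‖g ξ - smo g ε ξ‖ₑ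
      ≤ ∫⁻ ξ : ℝ × ℝ, ∫⁻ u, ENNReal.ofReal (gs u) * ‖g (ξ.1, ξ.2 + ε * u) - g ξ‖ₑ := by
        refine lintegral_mono fun ξ => ?_
        have h1 : g ξ - smo g ε ξ = ∫ u, (gs u : ℂ) * (g ξ - g (ξ.1, ξ.2 + ε * u)) := by
          simp only [mul_sub]
          have hi : Integrable fun u => (gs u : ℂ) * g ξ :=
            (integrable_gs.ofReal (𝕜 := ℂ)).mul_const _
          rw [integral_sub hi (hg.integrable_slice ε ξ),
            integral_mul_const, integral_complex_ofReal, integral_gs, Complex.ofReal_one, one_mul]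
          rfl
        rw [h1]
        refine (enorm_integral_le_lintegral_enorm _).trans (le_of_eq (lintegral_congr fun u => ?_))
        rw [enorm_mul, enorm_sub_rev, ← ofReal_norm ((gs u : ℂ)), Complex.norm_real,
          Real.norm_of_nonneg (gs_pos u).le]
    _ = ∫⁻ u, ∫⁻ ξ : ℝ × ℝ, ENNReal.ofReal (gs u) * ‖g (ξ.1, ξ.2 + ε * u) - g ξ‖ₑ :=
        lintegral_lintegral_swap hm2.aemeasurable
    _ ≤ ∫⁻ u, ENNReal.ofReal (ε ^ s) * ENNReal.ofReal (gs u * (1 + |u|)) := by
        refine lintegral_mono fun u => ?_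
        rw [lintegral_const_mul' _ _ ENNReal.ofReal_ne_top,
          ← ENNReal.ofReal_mul (Real.rpow_nonneg hε s)]
        refine (mul_le_mul_right (hg.modulus _) _).trans ?_
        rw [← ENNReal.ofReal_mul (gs_pos u).le]
        refine ENNReal.ofReal_le_ofReal ?_
        have h2 : |u| ^ s ≤ 1 + |u| := by
          rcases le_total |u| 1 with h | h
          · exact (Real.rpow_le_one (abs_nonneg u) h hs0).trans (by linarith [abs_nonneg u])
          · exact ((Real.rpow_le_rpow_of_exponent_le h hs1).trans_eq (Real.rpow_one _)).trans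
              (by linarith)
        rw [abs_mul, abs_of_nonneg hε, Real.mul_rpow hε (abs_nonneg u), mul_left_comm]
        exact mul_le_mul_of_nonneg_left (mul_le_mul_of_nonneg_left h2 (gs_pos u).le)
          (Real.rpow_nonneg hε s)
    _ = _ := by rw [lintegral_const_mul' _ _ ENNReal.ofReal_ne_top]; rfl

lemma Nice.integrable_smo {g : ℝ × ℝ → ℂ} {R s : ℝ} (hg : Nice g R s) (hs0 : 0 ≤ s) (hs1 : s ≤ 1)
    {ε : ℝ} (hε : 0 ≤ ε) : Integrable (smo g ε) := by
  have hr : Integrable fun ξ => g ξ - smo g ε ξ :=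
    ⟨(hg.meas.sub (measurable_smo hg.meas ε)).aestronglyMeasurable,
      lt_of_le_of_lt (hg.sub_smo_le hs0 hs1 hε)
        (ENNReal.mul_lt_top ENNReal.ofReal_lt_top momC_ne_top.lt_top)⟩
  exact (hg.integrable.sub hr).congr (ae_of_all _ fun ξ => by simp)

/-- The packet carried by the line with second coordinate `b`. -/
def packet (ε x₂ t b : ℝ) : ℂ := ∫ u, (gs u : ℂ) * e (x₂ * (b - ε * u) + t * (b - ε * u) ^ 2)

/-- The dominating Gaussian for a packet. -/
def pk (ε x₂ t b : ℝ) : ℝ :=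
  Real.exp (-(π / (1 + 4 * (t * ε ^ 2) ^ 2)) * ε ^ 2 * (x₂ + 2 * t * b) ^ 2)

lemma norm_packet_le (ε x₂ t b : ℝ) : ‖packet ε x₂ t b‖ ≤ pk ε x₂ t b := by
  set β := t * ε ^ 2 with hβ
  set γ := ε * (x₂ + 2 * t * b) with hγ
  set bb : ℂ := -(π : ℂ) * (1 - 2 * β * I) with hbb
  have hre : bb.re = -π := by simp [hbb]
  have him : bb.im = 2 * π * β := by simp [hbb]; ring
  have e1 : ∀ u : ℝ, (gs u : ℂ) * e (x₂ * (b - ε * u) + t * (b - ε * u) ^ 2)
      = cexp (bb * (u : ℂ) ^ 2 + (-(2 * π * γ : ℝ) * I) * u + (2 * π * (x₂ * b + t * b ^ 2) : ℝ) * I) :=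
    fun u => by
      rw [gs, e, Complex.ofReal_exp, ← Complex.exp_add, hbb, hβ, hγ]; push_cast; ring_nf
  unfold packet
  simp only [e1]
  rw [integral_cexp_quadratic (by rw [hre]; linarith [Real.pi_pos]), norm_mul, Complex.norm_exp]
  have hbn : π ≤ ‖bb‖ := by
    have := Complex.abs_re_le_norm bb
    rwa [hre, abs_neg, abs_of_pos Real.pi_pos] at this
  have hr : ‖((π : ℂ) / -bb) ^ (1 / 2 : ℂ)‖ ≤ 1 := by
    rw [show (1 / 2 : ℂ) = ((1 / 2 : ℝ) : ℂ) by norm_num, Complex.norm_cpow_real]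
    refine Real.rpow_le_one (norm_nonneg _) ?_ (by norm_num)
    rw [norm_div, norm_neg, Complex.norm_real, Real.norm_of_nonneg Real.pi_pos.le]
    exact div_le_one_of_le₀ hbn (norm_nonneg _)
  refine (mul_le_of_le_one_left (Real.exp_pos _).le hr).trans (le_of_eq ?_)
  rw [pk, ← hβ]
  congr 1
  simp [Complex.div_re, Complex.normSq_apply, hre, him, sq, hγ]
  have : (0:ℝ) < 1 + 4 * β * β := by nlinarith [sq_nonneg β]
  field_simp
  ring

/-- The extension of the smoothed data is a superposition of packets times parabolic extensions. -/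
lemma Nice.EP_smo {g : ℝ × ℝ → ℂ} {R s : ℝ} (hg : Nice g R s) (ε : ℝ) (x : ℝ × ℝ) (t : ℝ) :
    EP (smo g ε) x t = ∫ b, packet ε x.2 t b * E1 (fun a => g (a, b)) x.1 t := by
  let P : ℝ × ℝ → ℝ := fun ξ => x.1 * ξ.1 + x.2 * ξ.2 + t * nsq ξ
  have hPc : Continuous P := by simp only [P, nsq]; fun_prop
  have hF : Integrable (fun z : (ℝ × ℝ) × ℝ => (gs z.2 : ℂ) * g (z.1.1, z.1.2 + ε * z.2) * e (P z.1))
      (volume.prod volume) := by
    have hms : AEStronglyMeasurable (fun z : (ℝ × ℝ) × ℝ =>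
        (gs z.2 : ℂ) * g (z.1.1, z.1.2 + ε * z.2)) (volume.prod volume) :=
      (((Complex.continuous_ofReal.comp continuous_gs).measurable.comp measurable_snd).mul
        (hg.meas.comp (by fun_prop))).aestronglyMeasurable
    have hsh : ∀ u : ℝ, (fun ξ : ℝ × ℝ => g (ξ.1, ξ.2 + ε * u))
        = fun ξ => g (ξ + (0, ε * u)) := fun u => by funext ξ; simp [Prod.add_def]
    have h0 : Integrable (fun z : (ℝ × ℝ) × ℝ => (gs z.2 : ℂ) * g (z.1.1, z.1.2 + ε * z.2))
        (volume.prod volume) := by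
      refine (integrable_prod_iff' hms).2 ⟨ae_of_all _ fun u => ?_, ?_⟩
      · exact (hsh u ▸ hg.integrable.comp_add_right (0, ε * u)).const_mul (gs u : ℂ)
      · have : ∀ u : ℝ, ∫ ξ : ℝ × ℝ, ‖(gs u : ℂ) * g (ξ.1, ξ.2 + ε * u)‖ = gs u * ∫ ξ, ‖g ξ‖ :=
          fun u => by
            simp only [norm_mul, Complex.norm_real, Real.norm_of_nonneg (gs_pos u).le]
            rw [integral_const_mul]
            congr 1
            rw [← integral_add_right_eq_self (fun ξ => ‖g ξ‖) ((0 : ℝ), ε * u)]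
            simp [Prod.add_def]
        simp only [this]
        exact integrable_gs.mul_const _
    exact h0.mul_bdd (c := 1) (continuous_e.comp (hPc.comp continuous_fst)).aestronglyMeasurable
      (ae_of_all _ fun z => (norm_e _).le)
  have hG : Integrable (fun z : ℝ × (ℝ × ℝ) => g z.2 * ((gs z.1 : ℂ) * e (P (z.2.1, z.2.2 - ε * z.1))))
      (volume.prod volume) := by
    have h0 : Integrable (fun z : ℝ × (ℝ × ℝ) => (gs z.1 : ℂ) * g z.2) (volume.prod volume) :=
      integrable_gs.ofReal.mul_prod hg.integrable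
    refine (h0.mul_bdd (c := 1) (g := fun z => e (P (z.2.1, z.2.2 - ε * z.1)))
      (continuous_e.comp (hPc.comp (by fun_prop))).aestronglyMeasurable
      (ae_of_all _ fun z => (norm_e _).le)).congr (ae_of_all _ fun z => by ring)
  calc EP (smo g ε) x t
      = ∫ ξ : ℝ × ℝ, ∫ u, (gs u : ℂ) * g (ξ.1, ξ.2 + ε * u) * e (P ξ) := by
        simp only [EP, smo, ← integral_mul_const, P]
    _ = ∫ u, ∫ ξ : ℝ × ℝ, (gs u : ℂ) * g (ξ.1, ξ.2 + ε * u) * e (P ξ) := integral_integral_swap hF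
    _ = ∫ u, ∫ ξ : ℝ × ℝ, g ξ * ((gs u : ℂ) * e (P (ξ.1, ξ.2 - ε * u))) := by
        refine integral_congr_ae (ae_of_all _ fun u => ?_)
        simp only
        rw [← integral_add_right_eq_self
          (fun ξ => g ξ * ((gs u : ℂ) * e (P (ξ.1, ξ.2 - ε * u)))) ((0 : ℝ), ε * u)]
        refine integral_congr_ae (ae_of_all _ fun ξ => ?_)
        simp [Prod.add_def]; ring
    _ = ∫ ξ : ℝ × ℝ, ∫ u, g ξ * ((gs u : ℂ) * e (P (ξ.1, ξ.2 - ε * u))) := integral_integral_swap hG
    _ = ∫ ξ : ℝ × ℝ, packet ε x.2 t ξ.2 * (g ξ * e (x.1 * ξ.1 + t * ξ.1 ^ 2)) := by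
        refine integral_congr_ae (ae_of_all _ fun ξ => ?_)
        simp only [packet, ← integral_mul_const]
        refine integral_congr_ae (ae_of_all _ fun u => ?_)
        have e5 : e (P (ξ.1, ξ.2 - ε * u)) = e (x.2 * (ξ.2 - ε * u) + t * (ξ.2 - ε * u) ^ 2)
            * e (x.1 * ξ.1 + t * ξ.1 ^ 2) := by
          rw [← e_add]; congr 1; simp only [P, nsq]; ring
        simp only [e5]; ring
    _ = _ := by
        rw [Measure.volume_eq_prod, integral_prod_symm]
        · refine integral_congr_ae (ae_of_all _ fun b => ?_)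
          simp only [E1, ← integral_const_mul]
        · have hb : Continuous fun ξ : ℝ × ℝ => e (x.1 * ξ.1 + t * ξ.1 ^ 2) :=
            continuous_e.comp (by fun_prop)
          have hp : Measurable fun b : ℝ => packet ε x.2 t b := by
            have hu : Measurable fun q : ℝ × ℝ =>
                (gs q.2 : ℂ) * e (x.2 * (q.1 - ε * q.2) + t * (q.1 - ε * q.2) ^ 2) := by
              have := continuous_gs; have := continuous_e
              exact Continuous.measurable (by fun_prop)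
            exact (StronglyMeasurable.integral_prod_right
              (f := fun b u => (gs u : ℂ) * e (x.2 * (b - ε * u) + t * (b - ε * u) ^ 2))
              hu.stronglyMeasurable).measurable
          refine Integrable.bdd_mul (c := 1) ?_ (hp.comp measurable_snd).aestronglyMeasurable
            (ae_of_all _ fun ξ => ?_)
          · have := hg.integrable; rw [Measure.volume_eq_prod] at this
            exact this.mul_bdd (c := 1) hb.aestronglyMeasurable (ae_of_all _ fun z => (norm_e _).le)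
          · refine (norm_packet_le _ _ _ _).trans (Real.exp_le_one_iff.2 ?_)
            have h1 : 0 ≤ π / (1 + 4 * (t * ε ^ 2) ^ 2) * ε ^ 2 * (x.2 + 2 * t * ξ.2) ^ 2 := by
              positivity
            linarith [neg_mul (π / (1 + 4 * (t * ε ^ 2) ^ 2)) (ε ^ 2),
              show -(π / (1 + 4 * (t * ε ^ 2) ^ 2)) * ε ^ 2 * (x.2 + 2 * t * ξ.2) ^ 2
                = -(π / (1 + 4 * (t * ε ^ 2) ^ 2) * ε ^ 2 * (x.2 + 2 * t * ξ.2) ^ 2) by ring]

end Vale.Agent.P122.Dir
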