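import Vale.Agent.P122.Dir.Bound

/-!
# P122, data regular in one direction: passing to the surface measure of the paraboloid
-/

noncomputable section

namespace Vale.Agent.P122.Dir

open MeasureTheory Complex Filter Topology Set
open scoped ENNReal Real

/-- The area density of the paraboloid over the plane. -/
def den (ξ : ℝ × ℝ) : ℝ := √(1 + 4 * (ξ.1 ^ 2 + ξ.2 ^ 2))

lemma continuous_den : Continuous den := by unfold den; fun_prop

lemma den_nonneg (ξ : ℝ × ℝ) : 0 ≤ den ξ := Real.sqrt_nonneg _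

lemma den_le (ξ : ℝ × ℝ) : den ξ ≤ 1 + 2 * |ξ.1| + 2 * |ξ.2| := by
  unfold den; rw [Real.sqrt_le_iff]
  refine ⟨by positivity, ?_⟩
  nlinarith [abs_nonneg ξ.1, abs_nonneg ξ.2, sq_abs ξ.1, sq_abs ξ.2,
    mul_nonneg (abs_nonneg ξ.1) (abs_nonneg ξ.2)]

lemma den_shift_le (a b c : ℝ) : den (a, c) ≤ den (a, b) + 2 * |c - b| := by
  have hb := Real.sq_sqrt (by positivity : (0 : ℝ) ≤ 1 + 4 * (a ^ 2 + b ^ 2))
  have h1 : 2 * |b| ≤ den (a, b) := Real.le_sqrt_of_sq_le (by nlinarith [sq_abs b])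
  have h2 : |c| ≤ |b| + |c - b| := by
    have := abs_add_le b (c - b); rwa [add_sub_cancel] at this
  have h0 := den_nonneg (a, b)
  unfold den at h1 h0 ⊢
  simp only at h1 h0 hb ⊢
  rw [Real.sqrt_le_iff]
  refine ⟨by positivity, ?_⟩
  nlinarith [mul_le_mul_of_nonneg_left h1 (abs_nonneg (c - b)),
    mul_self_le_mul_self (abs_nonneg c) h2, sq_abs b, sq_abs c]

lemma abs_den_shift_le (a b c : ℝ) : |den (a, c) - den (a, b)| ≤ 2 * |c - b| := by
  rw [abs_sub_le_iff]
  exact ⟨by linarith [den_shift_le a b c], by linarith [den_shift_le a c b, abs_sub_comm b c]⟩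

/-- The bound for the weighted data on the paraboloid. -/
theorem surface_bound (p s R : ℝ) (hp : 3 < p) (hs0 : 0 < s) (hs1 : s ≤ 1)
    (hps : 8 < p * (2 + s)) :
    ∃ C : ℝ, 0 ≤ C ∧ ∀ (f : ℝ × ℝ → ℂ) (M A : ℝ), Measurable f → 0 ≤ A → (∀ ξ, ‖f ξ‖ ≤ M) →
      (∀ ξ : ℝ × ℝ, R < |ξ.1| ∨ R < |ξ.2| → f ξ = 0) →
      (∀ h : ℝ, ∫ ξ : ℝ × ℝ, ‖f (ξ.1, ξ.2 + h) - f ξ‖ ≤ A * |h| ^ s) →
      ∫⁻ z : (ℝ × ℝ) × ℝ, ‖EP (fun ξ => f ξ * (den ξ : ℂ)) z.1 z.2‖ₑ ^ p
        ≤ ENNReal.ofReal (C * (M + A) ^ p) := by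
  set R' := max R 0
  have hR' : 0 ≤ R' := le_max_right R 0
  set V := 2 * R' * (2 * R')
  have hV : 0 ≤ V := by positivity
  set W := 1 + 4 * (R' + 1)
  have hW : 1 ≤ W := by linarith
  set L := W + 2 * V * (W + 1) with hL_def
  have hL : 1 ≤ L := by have : 0 ≤ 2 * V * (W + 1) := (by positivity); linarith
  obtain ⟨K, hK, hb⟩ := nice_bound (R := R') (s := s) (p := p) hR' hp hs0 hs1 hps
  refine ⟨K.toReal * L ^ p, mul_nonneg ENNReal.toReal_nonneg (by positivity),
    fun f M A hm hA hM hsupp hmod => ?_⟩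
  have hM0 : 0 ≤ M := (norm_nonneg _).trans (hM 0)
  rcases eq_or_lt_of_le (add_nonneg hM0 hA) with h0 | h0
  · have hf0 : ∀ ξ, f ξ = 0 := fun ξ => norm_le_zero_iff.1 ((hM ξ).trans (by linarith))
    simp [hf0, EP, ENNReal.zero_rpow_of_pos (by linarith : 0 < p)]
  set N := L * (M + A) with hN_def
  have hN : 0 < N := by positivity
  set g : ℝ × ℝ → ℂ := fun ξ => f ξ * (den ξ : ℂ) with hg_def
  have hgm : Measurable g := hm.mul (Complex.continuous_ofReal.comp continuous_den).measurable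
  set S := Icc (-R') R' ×ˢ Icc (-R') R'
  have hS : MeasurableSet S := measurableSet_Icc.prod measurableSet_Icc
  have hSi : Integrable (S.indicator fun _ => (1 : ℝ)) :=
    (integrable_indicator_iff hS).2 (integrableOn_const
      ((isCompact_Icc.prod isCompact_Icc).measure_lt_top).ne)
  have hSv : ∫ ξ, S.indicator (fun _ => (1 : ℝ)) ξ = V := by
    rw [integral_indicator_const _ hS, smul_eq_mul, mul_one, measureReal_def,
      Measure.volume_eq_prod, Measure.prod_prod, Real.volume_Icc, ENNReal.toReal_mul,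
      ENNReal.toReal_ofReal (by linarith)]
    ring
  have hout : ∀ ξ : ℝ × ℝ, ξ.1 ∉ Icc (-R') R' ∨ ξ.2 ∉ Icc (-R') R' → f ξ = 0 := fun ξ h => by
    have hR : R ≤ R' := le_max_left R 0
    refine hsupp ξ (h.imp (fun h => ?_) fun h => ?_) <;>
    · by_contra hc
      exact h (abs_le.1 ((not_lt.1 hc).trans hR))
  have hf : ∀ ξ, ‖f ξ‖ ≤ M * S.indicator (fun _ => (1 : ℝ)) ξ := fun ξ => by
    by_cases h : ξ ∈ S
    · simpa [h] using hM ξ
    · simp [h, hout ξ (Classical.not_and_iff_not_or_not.1 fun hc => h ⟨hc.1, hc.2⟩)]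
  have hfi : Integrable f := (hSi.const_mul M).mono' hm.aestronglyMeasurable (ae_of_all _ hf)
  have hf1 : ∫ ξ, ‖f ξ‖ ≤ M * V := by
    refine (integral_mono hfi.norm (hSi.const_mul M) hf).trans (le_of_eq ?_)
    rw [integral_const_mul, hSv]
  have hden : ∀ ξ : ℝ × ℝ, |ξ.1| ≤ R' + 1 → |ξ.2| ≤ R' + 1 → den ξ ≤ W := fun ξ h1 h2 =>
    (den_le ξ).trans (by linarith)
  have hgf : ∀ ξ, ‖g ξ‖ ≤ W * ‖f ξ‖ := fun ξ => by
    simp only [hg_def, norm_mul, Complex.norm_real, Real.norm_of_nonneg (den_nonneg ξ)]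
    by_cases h : ξ ∈ S
    · rw [mul_comm]
      exact mul_le_mul_of_nonneg_right (hden ξ ((abs_le.2 h.1).trans (by linarith))
        ((abs_le.2 h.2).trans (by linarith))) (norm_nonneg _)
    · simp [hout ξ (Classical.not_and_iff_not_or_not.1 fun hc => h ⟨hc.1, hc.2⟩)]
  have hgi : Integrable g := (hfi.norm.const_mul W).mono' hgm.aestronglyMeasurable (ae_of_all _ hgf)
  have hgM : ∀ ξ, ‖g ξ‖ ≤ N := fun ξ =>
    (hgf ξ).trans (mul_le_mul (by simp only [hL_def]; nlinarith) ((hM ξ).trans (by linarith))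
      (norm_nonneg _) (by linarith))
  have hgmod : ∀ h : ℝ, ∫ ξ : ℝ × ℝ, ‖g (ξ.1, ξ.2 + h) - g ξ‖ ≤ N * |h| ^ s := fun h => by
    set v : ℝ × ℝ := (0, h) with hv
    have hsh : ∀ ξ : ℝ × ℝ, ((ξ.1, ξ.2 + h) : ℝ × ℝ) = ξ + v := fun ξ => by
      simp [hv, Prod.add_def]
    simp only [hsh]
    have hm' := hmod h
    simp only [hsh] at hm'
    have hi : Integrable fun ξ => ‖g (ξ + v) - g ξ‖ := ((hgi.comp_add_right v).sub hgi).norm
    have hd : Integrable fun ξ => ‖f (ξ + v) - f ξ‖ := ((hfi.comp_add_right v).sub hfi).norm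
    rcases le_total |h| 1 with h1 | h1
    · have hhs : |h| ≤ |h| ^ s := Real.self_le_rpow_of_le_one (abs_nonneg h) h1 hs1
      have hpt : ∀ ξ, ‖g (ξ + v) - g ξ‖
          ≤ W * ‖f (ξ + v) - f ξ‖ + 2 * |h| * ‖f (ξ + v)‖ := fun ξ => by
        have e : g (ξ + v) - g ξ = (den ξ : ℂ) * (f (ξ + v) - f ξ)
            + ((den (ξ + v) - den ξ : ℝ) : ℂ) * f (ξ + v) := by
          simp only [hg_def]; push_cast; ring
        rw [e]
        refine (norm_add_le _ _).trans (add_le_add ?_ ?_)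
        · rw [norm_mul, Complex.norm_real, Real.norm_of_nonneg (den_nonneg ξ)]
          by_cases hz : |ξ.1| ≤ R' + 1 ∧ |ξ.2| ≤ R' + 1
          · exact mul_le_mul_of_nonneg_right (hden ξ hz.1 hz.2) (norm_nonneg _)
          · have e1 : (ξ + v).1 = ξ.1 := by simp [hv]
            have e2 : (ξ + v).2 = ξ.2 + h := by simp [hv]
            have z1 : f ξ = 0 := hout ξ (by
              by_contra hc; push Not at hc
              exact hz ⟨(abs_le.2 hc.1).trans (by linarith), (abs_le.2 hc.2).trans (by linarith)⟩)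
            have z2 : f (ξ + v) = 0 := hout _ (by
              by_contra hc; push Not at hc; rw [e1, e2] at hc
              refine hz ⟨(abs_le.2 hc.1).trans (by linarith), ?_⟩
              have h3 := abs_sub (ξ.2 + h) h
              rw [add_sub_cancel_right] at h3
              linarith [abs_le.2 hc.2])
            simp [z1, z2]
        · rw [norm_mul, Complex.norm_real, Real.norm_eq_abs]
          refine mul_le_mul_of_nonneg_right ?_ (norm_nonneg _)
          have e3 : ξ + v = (ξ.1, ξ.2 + h) := (hsh ξ).symm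
          rw [e3]
          exact (abs_den_shift_le ξ.1 ξ.2 (ξ.2 + h)).trans (le_of_eq (by rw [add_sub_cancel_left]))
      calc ∫ ξ, ‖g (ξ + v) - g ξ‖
          ≤ ∫ ξ, (W * ‖f (ξ + v) - f ξ‖ + 2 * |h| * ‖f (ξ + v)‖) :=
            integral_mono hi ((hd.const_mul W).add ((hfi.comp_add_right v).norm.const_mul _)) hpt
        _ = W * (∫ ξ, ‖f (ξ + v) - f ξ‖) + 2 * |h| * ∫ ξ, ‖f ξ‖ := by
            rw [integral_add (hd.const_mul W) ((hfi.comp_add_right v).norm.const_mul _),
              integral_const_mul, integral_const_mul,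
              integral_add_right_eq_self (fun ξ => ‖f ξ‖)]
        _ ≤ W * (A * |h| ^ s) + 2 * |h| ^ s * (M * V) := by gcongr
        _ = (W * A + 2 * V * M) * |h| ^ s := by ring
        _ ≤ _ := by
            refine mul_le_mul_of_nonneg_right ?_ (Real.rpow_nonneg (abs_nonneg h) s)
            simp only [hN_def, hL_def]
            nlinarith [mul_nonneg hV hM0, mul_nonneg (mul_nonneg hV (le_trans zero_le_one hW)) hM0,
              mul_nonneg hV hA, mul_nonneg (mul_nonneg hV (le_trans zero_le_one hW)) hA,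
              mul_nonneg (le_trans zero_le_one hW) hM0]
    · have hhs : 1 ≤ |h| ^ s := Real.one_le_rpow h1 hs0.le
      calc ∫ ξ, ‖g (ξ + v) - g ξ‖ ≤ ∫ ξ, (‖g (ξ + v)‖ + ‖g ξ‖) :=
            integral_mono hi ((hgi.comp_add_right v).norm.add hgi.norm) fun ξ => norm_sub_le _ _
        _ = 2 * ∫ ξ, ‖g ξ‖ := by
            rw [integral_add (hgi.comp_add_right v).norm hgi.norm,
              integral_add_right_eq_self (fun ξ => ‖g ξ‖)]
            ring
        _ ≤ 2 * (W * (M * V)) := by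
            refine mul_le_mul_of_nonneg_left ((integral_mono hgi.norm (hfi.norm.const_mul W) hgf).trans ?_) zero_le_two
            rw [integral_const_mul]
            exact mul_le_mul_of_nonneg_left hf1 (by linarith)
        _ ≤ N := by
            simp only [hN_def, hL_def]
            nlinarith [mul_nonneg hV hM0, mul_nonneg (le_trans zero_le_one hW) hM0,
              mul_nonneg (le_trans zero_le_one hW) hA, mul_nonneg hV hA,
              mul_nonneg (mul_nonneg hV (le_trans zero_le_one hW)) hA]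
        _ ≤ _ := le_mul_of_one_le_right hN.le hhs
  set g' : ℝ × ℝ → ℂ := fun ξ => ((N⁻¹ : ℝ) : ℂ) * g ξ with hg'
  have hnice : Nice g' R' s := by
    refine ⟨hgm.const_mul _, fun ξ => ?_, fun ξ h => by simp [hg', hg_def, hout ξ h], fun h => ?_⟩
    · rw [hg', norm_mul, Complex.norm_real, Real.norm_of_nonneg (by positivity),
        inv_mul_le_one₀ hN]
      exact hgM ξ
    · have hv : (fun ξ : ℝ × ℝ => g (ξ.1, ξ.2 + h)) = fun ξ => g (ξ + (0, h)) := by
        funext ξ; simp [Prod.add_def]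
      have hd : Integrable fun ξ : ℝ × ℝ => g (ξ.1, ξ.2 + h) - g ξ :=
        (hv ▸ hgi.comp_add_right ((0 : ℝ), h)).sub hgi
      simp only [hg', ← mul_sub, enorm_mul]
      rw [lintegral_const_mul' _ _ enorm_ne_top, ← ofReal_integral_norm_eq_lintegral_enorm hd,
        ← ofReal_norm, Complex.norm_real, Real.norm_of_nonneg (by positivity),
        ← ENNReal.ofReal_mul (by positivity)]
      refine ENNReal.ofReal_le_ofReal ((mul_le_mul_of_nonneg_left (hgmod h) (by positivity)).trans ?_)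
      rw [inv_mul_cancel_left₀ hN.ne']
  have hEP : ∀ x t, EP g x t = (N : ℂ) * EP g' x t := fun x t => by
    simp only [EP, hg', ← integral_const_mul]
    refine integral_congr_ae (ae_of_all _ fun ξ => ?_)
    have : (N : ℂ) ≠ 0 := by exact_mod_cast hN.ne'
    push_cast; field_simp
  have hF : Measurable fun z : (ℝ × ℝ) × ℝ => ‖EP g z.1 z.2‖ₑ ^ p :=
    (continuous_EP hgi).measurable.enorm.pow_const p
  have hNn : ENNReal.ofReal N ^ p ≠ ⊤ :=
    ENNReal.rpow_ne_top_of_nonneg (by linarith) ENNReal.ofReal_ne_top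
  calc ∫⁻ z : (ℝ × ℝ) × ℝ, ‖EP g z.1 z.2‖ₑ ^ p
      = ∫⁻ t, ∫⁻ x, ‖EP g x t‖ₑ ^ p := by
        rw [Measure.volume_eq_prod, lintegral_prod_symm _ hF.aemeasurable]
    _ = ENNReal.ofReal N ^ p * ∫⁻ t, ∫⁻ x, ‖EP g' x t‖ₑ ^ p := by
        simp only [hEP, enorm_mul, ENNReal.mul_rpow_of_nonneg _ _ (by linarith : (0:ℝ) ≤ p),
          ← ofReal_norm ((N : ℂ)), Complex.norm_real, Real.norm_of_nonneg hN.le,
          lintegral_const_mul' _ _ hNn]
    _ ≤ ENNReal.ofReal N ^ p * K := mul_le_mul_right (hb g' hnice) _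
    _ = _ := by
        rw [ENNReal.ofReal_rpow_of_pos hN, ← ENNReal.ofReal_toReal hK,
          ← ENNReal.ofReal_mul (by positivity), ENNReal.toReal_ofReal ENNReal.toReal_nonneg,
          hN_def, Real.mul_rpow (by linarith) h0.le]
        ring_nf

end Vale.Agent.P122.Dir
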